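import Claimed.Agent.R289.Ppp

/-!
# Row 289 (S0537), box MESH, file Mesh/Net : LEMMA 2.3 (Poisson mesh estimates), THE VOID GRID      (owner helper127; prefix `pvm_`)

Everything is derived from the void probabilities `IsPpp (pvInt ε) μ` only (no explicit construction of the process).
* generic: `pvmOcc B` (occupied event), `pvm_fail_le` (union bound over finitely many void tests), `pvmW t B = 1 + t 1{occupied}`,
  `pvm_W_prod` (product formula for pairwise disjoint sets, from `IsPpp.indep`), `pvm_W_prod_le` (`≤ exp (t a)`): input of the count moments (file Mesh/Cnt)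
* `pvm_int_prod`, `pvmR a b c d` (rectangle), `pvm_R_vol`; grid boxes `pvmQ δ k`, `pvmIx δ z`, blocks of indices `pvmIdx k0 N`, squares `pvmSq w L`
* `pvmGrid c δ w N` (grid event, colour set `c`), `PvNetC c ρ K η`, `PvNet ρ K η` (**net property**: every point of `K` is at distance `< ρ` of a site)
* **`pvmGood c ρ w L`** = good mesh event (does NOT depend on `ε`): measurable `pvm_good_meas`, increasing `pvm_good_mono`, local `pvm_good_loc` (reads the sites of `pvmSq w (L + 2 ρ)` only),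
  gives the net `pvm_good_net`, `pvm_good_prob : μ (bad) ≤ (4 L / ρ + 5)² exp (- ρ² / (8 ε²))`, `pvm_good_tendsto`, `pvm_net_bdd` (bounded sets)
-/

set_option autoImplicit false
set_option linter.unusedSectionVars false

namespace Claimed.Agent.R289

open MeasureTheory ProbabilityTheory Set Filter Topology
open scoped ENNReal NNReal

section gen

variable {E : Type*} [MeasurableSpace E]

/-- occupied event: `η` has a point in `B` -/
def pvmOcc (B : Set E) : Set (Conf E) := {η | ∃ p ∈ η.pts, p ∈ B}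

theorem pvm_mem_occ {B : Set E} {η : Conf E} : η ∈ pvmOcc B ↔ ∃ p ∈ η.pts, p ∈ B := Iff.rfl

theorem pvm_occ_eq (B : Set E) : pvmOcc B = (Conf.void B)ᶜ := by
  ext η
  simp only [pvmOcc, mem_ofPred_eq, mem_compl_iff, Conf.mem_void, not_forall, not_not, exists_prop]

theorem pvm_occ_meas {B : Set E} (hB : MeasurableSet B) : MeasurableSet (pvmOcc B) := by
  rw [pvm_occ_eq]; exact (Conf.measurableSet_void hB).compl

theorem pvm_occ_mono {B C : Set E} (h : B ⊆ C) : pvmOcc B ⊆ pvmOcc C := by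
  rintro η ⟨p, hp, hpB⟩; exact ⟨p, hp, h hpB⟩

theorem pvm_expNeg_anti : Antitone expNeg := by
  intro x y hxy
  unfold expNeg
  by_cases hy : y = ∞
  · simp [hy]
  have hx : x ≠ ∞ := ne_top_of_le_ne_top hy hxy
  rw [if_neg hx, if_neg hy]
  apply ENNReal.ofReal_le_ofReal
  apply Real.exp_le_exp.2
  have := (ENNReal.toReal_le_toReal hx hy).2 hxy
  linarith

theorem pvm_expNeg_ofReal {x : ℝ} (hx : 0 ≤ x) : expNeg (ENNReal.ofReal x) = ENNReal.ofReal (Real.exp (-x)) := by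
  unfold expNeg
  rw [if_neg ENNReal.ofReal_ne_top, ENNReal.toReal_ofReal hx]

/-- union bound over finitely many void tests -/
theorem pvm_fail_le {m : Measure E} {μ : Measure (Conf E)} (h : IsPpp m μ) {ι : Type*} (I : Finset ι) (B : ι → Set E)
    (hB : ∀ i ∈ I, MeasurableSet (B i)) (a : ℝ≥0∞) (ha : ∀ i ∈ I, a ≤ m (B i)) :
    μ (⋂ i ∈ I, pvmOcc (B i))ᶜ ≤ I.card * expNeg a := by
  have e : (⋂ i ∈ I, pvmOcc (B i))ᶜ = ⋃ i ∈ I, Conf.void (B i) := by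
    simp only [compl_iInter, pvm_occ_eq, compl_compl]
  rw [e]
  calc μ (⋃ i ∈ I, Conf.void (B i)) ≤ ∑ i ∈ I, μ (Conf.void (B i)) := measure_biUnion_finset_le I _
    _ ≤ ∑ i ∈ I, expNeg a := Finset.sum_le_sum fun i hi => by
        rw [h.void _ (hB i hi)]; exact pvm_expNeg_anti (ha i hi)
    _ = I.card * expNeg a := by rw [Finset.sum_const, nsmul_eq_mul]

/-! ## 0'. occupation weights of disjoint sets (generic) -/

theorem pvm_occ_prob {m : Measure E} {μ : Measure (Conf E)} (h : IsPpp m μ) {B : Set E} (hB : MeasurableSet B) :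
    μ (pvmOcc B) = 1 - expNeg (m B) := by
  have := h.prob
  rw [pvm_occ_eq, prob_compl_eq_one_sub (Conf.measurableSet_void hB), h.void B hB]

theorem pvm_one_sub_expNeg_le (a : ℝ≥0∞) : 1 - expNeg a ≤ a := by
  by_cases ha : a = ∞
  · rw [ha]; exact le_top
  obtain ⟨x, hx, rfl⟩ : ∃ x : ℝ, 0 ≤ x ∧ a = ENNReal.ofReal x := ⟨a.toReal, ENNReal.toReal_nonneg, (ENNReal.ofReal_toReal ha).symm⟩
  rw [tsub_le_iff_right, pvm_expNeg_ofReal hx, ← ENNReal.ofReal_add hx (Real.exp_pos _).le, ← ENNReal.ofReal_one]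
  apply ENNReal.ofReal_le_ofReal
  have := Real.add_one_le_exp (-x)
  linarith

/-- the weight `1 + t 1{η ∩ B ≠ ∅}` -/
noncomputable def pvmW (t : ℝ≥0∞) (B : Set E) (η : Conf E) : ℝ≥0∞ := 1 + (pvmOcc B).indicator (fun _ => t) η

theorem pvm_W_meas (t : ℝ≥0∞) {B : Set E} (hB : MeasurableSet B) : Measurable (pvmW t B) := by
  have h1 : Measurable ((pvmOcc B).indicator fun _ : Conf E => t) := measurable_const.indicator (pvm_occ_meas hB)
  exact measurable_const.add h1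

theorem pvm_W_occ {t : ℝ≥0∞} {B : Set E} {η : Conf E} (h : η ∈ pvmOcc B) : pvmW t B η = 1 + t := by
  rw [pvmW, indicator_of_mem h]

theorem pvm_one_le_W (t : ℝ≥0∞) (B : Set E) (η : Conf E) : 1 ≤ pvmW t B η := le_self_add

theorem pvm_W_restr (t : ℝ≥0∞) {B O : Set E} (h : B ⊆ O) (η : Conf E) : pvmW t B (Conf.restr O η) = pvmW t B η := by
  have : Conf.restr O η ∈ pvmOcc B ↔ η ∈ pvmOcc B := by
    simp only [pvmOcc, Conf.restr, mem_ofPred_eq, mem_inter_iff]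
    exact ⟨fun ⟨p, hp, hB⟩ => ⟨p, hp.1, hB⟩, fun ⟨p, hp, hB⟩ => ⟨p, ⟨hp, h hB⟩, hB⟩⟩
  unfold pvmW
  by_cases h1 : η ∈ pvmOcc B
  · rw [indicator_of_mem h1, indicator_of_mem (this.2 h1)]
  · rw [indicator_of_notMem h1, indicator_of_notMem (fun h2 => h1 (this.1 h2))]

theorem pvm_W_lint {m : Measure E} {μ : Measure (Conf E)} (h : IsPpp m μ) (t : ℝ≥0∞) {B : Set E} (hB : MeasurableSet B) :
    ∫⁻ η, pvmW t B η ∂μ = 1 + t * (1 - expNeg (m B)) := by
  have := h.prob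
  unfold pvmW
  rw [lintegral_add_left measurable_const, lintegral_one, measure_univ, lintegral_indicator (pvm_occ_meas hB), setLIntegral_const,
    pvm_occ_prob h hB]

/-- **product formula** for the occupation weights of pairwise disjoint sets -/
theorem pvm_W_prod {m : Measure E} {μ : Measure (Conf E)} (h : IsPpp m μ) (t : ℝ≥0∞) {ι : Type*} (I : Finset ι) (B : ι → Set E)
    (hB : ∀ i ∈ I, MeasurableSet (B i)) (hd : (I : Set ι).PairwiseDisjoint B) :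
    ∫⁻ η, ∏ i ∈ I, pvmW t (B i) η ∂μ = ∏ i ∈ I, (1 + t * (1 - expNeg (m (B i)))) := by
  classical
  have := h.prob
  induction I using Finset.induction_on with
  | empty => simp
  | insert i s hi ih =>
    have hBi := hB i (Finset.mem_insert_self i s)
    have hBs : ∀ j ∈ s, MeasurableSet (B j) := fun j hj => hB j (Finset.mem_insert_of_mem hj)
    have hds : (s : Set ι).PairwiseDisjoint B := hd.subset (by simp)
    have hsub : ∀ j ∈ s, B j ⊆ (B i)ᶜ := by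
      intro j hj
      have hne : j ≠ i := fun e => hi (e ▸ hj)
      have := hd (Finset.mem_coe.2 (Finset.mem_insert_of_mem hj)) (Finset.mem_coe.2 (Finset.mem_insert_self i s)) hne
      exact this.subset_compl_right
    simp only [Finset.prod_insert hi]
    have hind := h.indep hBi
    have hφ : Measurable (pvmW t (B i)) := pvm_W_meas t hBi
    have hψ : Measurable fun η : Conf E => ∏ j ∈ s, pvmW t (B j) η := Finset.measurable_fun_prod s fun j hj => pvm_W_meas t (hBs j hj)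
    have hind2 := hind.comp hφ hψ
    have e1 : (pvmW t (B i)) ∘ Conf.restr (B i) = pvmW t (B i) := funext fun η => pvm_W_restr t subset_rfl η
    have e2 : (fun η : Conf E => ∏ j ∈ s, pvmW t (B j) η) ∘ Conf.restr (B i)ᶜ = fun η : Conf E => ∏ j ∈ s, pvmW t (B j) η :=
      funext fun η => Finset.prod_congr rfl fun j hj => pvm_W_restr t (hsub j hj) η
    rw [e1, e2] at hind2
    have := lintegral_mul_eq_lintegral_mul_lintegral_of_indepFun hφ hψ hind2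
    simp only [Pi.mul_apply] at this
    rw [this, ih hBs hds, pvm_W_lint h t hBi]

/-- exponential bound -/
theorem pvm_W_prod_le {m : Measure E} {μ : Measure (Conf E)} (h : IsPpp m μ) {t a : ℝ} (ht : 0 ≤ t) (ha0 : 0 ≤ a) {ι : Type*} (I : Finset ι) (B : ι → Set E)
    (hB : ∀ i ∈ I, MeasurableSet (B i)) (hd : (I : Set ι).PairwiseDisjoint B) (ha : m (⋃ i ∈ I, B i) ≤ ENNReal.ofReal a) :
    ∫⁻ η, ∏ i ∈ I, pvmW (ENNReal.ofReal t) (B i) η ∂μ ≤ ENNReal.ofReal (Real.exp (t * a)) := by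
  rw [pvm_W_prod h _ I B hB hd]
  rw [measure_biUnion_finset hd hB] at ha
  have hfin : ∀ i ∈ I, m (B i) ≠ ∞ := fun i hi =>
    ne_top_of_le_ne_top ENNReal.ofReal_ne_top ((Finset.single_le_sum (fun _ _ => zero_le) hi).trans ha)
  have h1 : ∀ i ∈ I, 1 + ENNReal.ofReal t * (1 - expNeg (m (B i))) ≤ ENNReal.ofReal (Real.exp (t * (m (B i)).toReal)) := by
    intro i hi
    calc 1 + ENNReal.ofReal t * (1 - expNeg (m (B i))) ≤ 1 + ENNReal.ofReal t * m (B i) := by gcongr; exact pvm_one_sub_expNeg_le _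
      _ = ENNReal.ofReal (1 + t * (m (B i)).toReal) := by
          rw [ENNReal.ofReal_add zero_le_one (by positivity), ENNReal.ofReal_one, ENNReal.ofReal_mul ht, ENNReal.ofReal_toReal (hfin i hi)]
      _ ≤ _ := ENNReal.ofReal_le_ofReal (by have := Real.add_one_le_exp (t * (m (B i)).toReal); linarith)
  refine (Finset.prod_le_prod' h1).trans ?_
  rw [← ENNReal.ofReal_prod_of_nonneg fun i _ => (Real.exp_pos _).le, ← Real.exp_sum, ← Finset.mul_sum]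
  apply ENNReal.ofReal_le_ofReal
  apply Real.exp_le_exp.2
  apply mul_le_mul_of_nonneg_left _ ht
  rw [← ENNReal.toReal_sum hfin]
  exact ENNReal.toReal_le_of_le_ofReal ha0 ha

end gen

/-! ## 1. intensity of product sets and rectangles -/

theorem pvm_int_prod (ε : ℝ) (A : Set ℂ) (c : Set Bool) :
    pvInt ε (A ×ˢ c) = ENNReal.ofReal ((ε⁻¹) ^ 2) * (volume A * pvCoin c) := by
  unfold pvInt
  rw [Measure.smul_apply, Measure.prod_prod, smul_eq_mul]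

theorem pvm_coin_univ : pvCoin univ = 1 := measure_univ

theorem pvm_coin_single (b : Bool) : pvCoin {b} = 2⁻¹ := by
  unfold pvCoin
  rw [PMF.toMeasure_apply_singleton _ _ (measurableSet_singleton b), PMF.uniformOfFintype_apply]
  simp

/-- the plane rectangle `[a,b) × [c,d)` -/
def pvmR (a b c d : ℝ) : Set ℂ := {z | z.re ∈ Ico a b ∧ z.im ∈ Ico c d}

theorem pvm_R_meas (a b c d : ℝ) : MeasurableSet (pvmR a b c d) := by
  have : pvmR a b c d = Complex.measurableEquivRealProd ⁻¹' (Ico a b ×ˢ Ico c d) := by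
    ext z; simp [pvmR, Complex.measurableEquivRealProd_apply]
  rw [this]
  exact Complex.measurableEquivRealProd.measurable (measurableSet_Ico.prod measurableSet_Ico)

theorem pvm_R_vol (a b c d : ℝ) : volume (pvmR a b c d) = ENNReal.ofReal (b - a) * ENNReal.ofReal (d - c) := by
  have : pvmR a b c d = Complex.measurableEquivRealProd ⁻¹' (Ico a b ×ˢ Ico c d) := by
    ext z; simp [pvmR, Complex.measurableEquivRealProd_apply]
  rw [this, Complex.volume_preserving_equiv_real_prod.measure_preimage (measurableSet_Ico.prod measurableSet_Ico).nullMeasurableSet,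
    Measure.volume_eq_prod, Measure.prod_prod, Real.volume_Ico, Real.volume_Ico]

/-! ## 2. the grid -/

/-- grid box of mesh `δ` and index `k` -/
def pvmQ (δ : ℝ) (k : ℤ × ℤ) : Set ℂ := pvmR ((k.1 : ℝ) * δ) (((k.1 : ℝ) + 1) * δ) ((k.2 : ℝ) * δ) (((k.2 : ℝ) + 1) * δ)

theorem pvm_Q_meas (δ : ℝ) (k : ℤ × ℤ) : MeasurableSet (pvmQ δ k) := pvm_R_meas _ _ _ _

theorem pvm_Q_vol {δ : ℝ} (hδ : 0 ≤ δ) (k : ℤ × ℤ) : volume (pvmQ δ k) = ENNReal.ofReal (δ ^ 2) := by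
  unfold pvmQ
  rw [pvm_R_vol, ← ENNReal.ofReal_mul (by nlinarith)]
  congr 1; ring

/-- index of the grid box of `z` -/
noncomputable def pvmIx (δ : ℝ) (z : ℂ) : ℤ × ℤ := (⌊z.re / δ⌋, ⌊z.im / δ⌋)

theorem pvm_mem_Q_iff {δ : ℝ} (hδ : 0 < δ) (z : ℂ) (k : ℤ × ℤ) : z ∈ pvmQ δ k ↔ pvmIx δ z = k := by
  simp only [pvmQ, pvmR, pvmIx, mem_ofPred_eq, mem_Ico, Prod.ext_iff, Int.floor_eq_iff, le_div_iff₀ hδ, div_lt_iff₀ hδ]

theorem pvm_mem_Q {δ : ℝ} (hδ : 0 < δ) (z : ℂ) : z ∈ pvmQ δ (pvmIx δ z) := (pvm_mem_Q_iff hδ z _).2 rfl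

theorem pvm_Q_disj {δ : ℝ} (hδ : 0 < δ) {k l : ℤ × ℤ} (h : k ≠ l) : Disjoint (pvmQ δ k) (pvmQ δ l) :=
  Set.disjoint_left.2 fun z hz hz' => h (((pvm_mem_Q_iff hδ z k).1 hz).symm.trans ((pvm_mem_Q_iff hδ z l).1 hz'))

theorem pvm_norm_lt {z : ℂ} {a : ℝ} (h1 : |z.re| < a) (h2 : |z.im| < a) : ‖z‖ < 2 * a := by
  have := Complex.norm_le_abs_re_add_abs_im z
  linarith

theorem pvm_Q_dist {δ : ℝ} {k : ℤ × ℤ} {z w : ℂ} (hz : z ∈ pvmQ δ k) (hw : w ∈ pvmQ δ k) : ‖z - w‖ < 2 * δ := by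
  simp only [pvmQ, pvmR, mem_ofPred_eq, mem_Ico] at hz hw
  apply pvm_norm_lt
  · rw [Complex.sub_re, abs_lt]; constructor <;> nlinarith [hz.1.1, hz.1.2, hw.1.1, hw.1.2]
  · rw [Complex.sub_im, abs_lt]; constructor <;> nlinarith [hz.2.1, hz.2.2, hw.2.1, hw.2.2]

/-- the block of indices of radius `N` around `k0` -/
noncomputable def pvmIdx (k0 : ℤ × ℤ) (N : ℕ) : Finset (ℤ × ℤ) := Finset.Icc (k0.1 - N) (k0.1 + N) ×ˢ Finset.Icc (k0.2 - N) (k0.2 + N)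

theorem pvm_mem_Idx {k0 k : ℤ × ℤ} {N : ℕ} : k ∈ pvmIdx k0 N ↔ |k.1 - k0.1| ≤ N ∧ |k.2 - k0.2| ≤ N := by
  simp only [pvmIdx, Finset.mem_product, Finset.mem_Icc, abs_le]
  constructor
  · rintro ⟨⟨a, b⟩, c, d⟩; exact ⟨⟨by linarith, by linarith⟩, by linarith, by linarith⟩
  · rintro ⟨⟨a, b⟩, c, d⟩; exact ⟨⟨by linarith, by linarith⟩, by linarith, by linarith⟩

theorem pvm_Idx_card (k0 : ℤ × ℤ) (N : ℕ) : (pvmIdx k0 N).card = (2 * N + 1) ^ 2 := by
  have h : ∀ a : ℤ, (Finset.Icc (a - N) (a + N)).card = 2 * N + 1 := by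
    intro a
    rw [Int.card_Icc]
    have : a + N + 1 - (a - N) = ((2 * N + 1 : ℕ) : ℤ) := by push_cast; ring
    rw [this, Int.toNat_natCast]
  rw [pvmIdx, Finset.card_product, h, h, sq]

/-- the closed square of centre `w` and half side `L` -/
def pvmSq (w : ℂ) (L : ℝ) : Set ℂ := {z | |z.re - w.re| ≤ L ∧ |z.im - w.im| ≤ L}

theorem pvm_Ix_mem {δ L : ℝ} (hδ : 0 < δ) {N : ℕ} (hN : L / δ + 1 ≤ N) {w z : ℂ} (hz : z ∈ pvmSq w L) :
    pvmIx δ z ∈ pvmIdx (pvmIx δ w) N := by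
  have key : ∀ x y : ℝ, |x - y| ≤ L → |⌊x / δ⌋ - ⌊y / δ⌋| ≤ (N : ℤ) := by
    intro x y hxy
    have h1 : |x / δ - y / δ| ≤ L / δ := by
      rw [← sub_div, abs_div, abs_of_pos hδ]; exact div_le_div_of_nonneg_right hxy hδ.le
    rw [abs_le] at h1 ⊢
    have a1 := Int.floor_le (x / δ)
    have a2 := Int.lt_floor_add_one (x / δ)
    have b1 := Int.floor_le (y / δ)
    have b2 := Int.lt_floor_add_one (y / δ)
    constructor
    · have : (-(N : ℝ) - 1) < ((⌊x / δ⌋ - ⌊y / δ⌋ : ℤ) : ℝ) := by push_cast; linarith [h1.1]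
      have h2 : ((-(N : ℤ) - 1 : ℤ) : ℝ) < ((⌊x / δ⌋ - ⌊y / δ⌋ : ℤ) : ℝ) := by push_cast; push_cast at this; linarith
      have := Int.cast_lt.1 h2
      omega
    · have : ((⌊x / δ⌋ - ⌊y / δ⌋ : ℤ) : ℝ) < (N : ℝ) + 1 := by push_cast; linarith [h1.2]
      have h2 : ((⌊x / δ⌋ - ⌊y / δ⌋ : ℤ) : ℝ) < (((N : ℤ) + 1 : ℤ) : ℝ) := by push_cast; push_cast at this; linarith
      have := Int.cast_lt.1 h2
      omega
  exact pvm_mem_Idx.2 ⟨key _ _ hz.1, key _ _ hz.2⟩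

theorem pvm_Q_sub_Sq {δ : ℝ} (hδ : 0 < δ) {N : ℕ} {w : ℂ} {k : ℤ × ℤ} (hk : k ∈ pvmIdx (pvmIx δ w) N) :
    pvmQ δ k ⊆ pvmSq w ((N + 1) * δ) := by
  intro z hz
  rw [pvm_mem_Idx] at hk
  have hw := pvm_mem_Q hδ w
  simp only [pvmQ, pvmR, mem_ofPred_eq, mem_Ico] at hz hw
  have key : ∀ (x y : ℝ) (a b : ℤ), |a - b| ≤ (N : ℤ) → (a : ℝ) * δ ≤ x → x < ((a : ℝ) + 1) * δ → (b : ℝ) * δ ≤ y → y < ((b : ℝ) + 1) * δ →
      |x - y| ≤ ((N : ℝ) + 1) * δ := by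
    intro x y a b hab h1 h2 h3 h4
    rw [abs_le] at hab
    have c1 : (-(N : ℝ)) ≤ (a : ℝ) - b := by exact_mod_cast hab.1
    have c2 : (a : ℝ) - b ≤ N := by exact_mod_cast hab.2
    rw [abs_le]
    constructor <;> nlinarith
  exact ⟨key _ _ _ _ hk.1 hz.1.1 hz.1.2 hw.1.1 hw.1.2, key _ _ _ _ hk.2 hz.2.1 hz.2.2 hw.2.1 hw.2.2⟩

/-! ## 3. the grid event, the net property -/

/-- **grid event**: every grid box of mesh `δ` with index within `N` of the box of `w` contains a site with colour in `c` -/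
def pvmGrid (c : Set Bool) (δ : ℝ) (w : ℂ) (N : ℕ) : Set (Conf PvPt) := ⋂ k ∈ pvmIdx (pvmIx δ w) N, pvmOcc (pvmQ δ k ×ˢ c)

theorem pvm_Qc_meas (δ : ℝ) (k : ℤ × ℤ) (c : Set Bool) : MeasurableSet (pvmQ δ k ×ˢ c) :=
  (pvm_Q_meas δ k).prod (MeasurableSet.of_discrete)

theorem pvm_grid_meas (c : Set Bool) (δ : ℝ) (w : ℂ) (N : ℕ) : MeasurableSet (pvmGrid c δ w N) :=
  Finset.measurableSet_biInter _ fun k _ => pvm_occ_meas (pvm_Qc_meas δ k c)

/-- **net property** (colour set `c`): every point of `K` is at distance `< ρ` of a site with colour in `c` -/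
def PvNetC (c : Set Bool) (ρ : ℝ) (K : Set ℂ) (η : Conf PvPt) : Prop := ∀ z ∈ K, ∃ p ∈ η.pts, p.2 ∈ c ∧ ‖p.1 - z‖ < ρ

/-- **net property**: every point of `K` is at distance `< ρ` of a site -/
def PvNet (ρ : ℝ) (K : Set ℂ) (η : Conf PvPt) : Prop := ∀ z ∈ K, ∃ p ∈ η.pts, ‖p.1 - z‖ < ρ

theorem pvm_net_of_netC {c : Set Bool} {ρ : ℝ} {K : Set ℂ} {η : Conf PvPt} (h : PvNetC c ρ K η) : PvNet ρ K η := by
  intro z hz
  obtain ⟨p, hp, _, h2⟩ := h z hz
  exact ⟨p, hp, h2⟩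

theorem pvm_netC_univ {ρ : ℝ} {K : Set ℂ} {η : Conf PvPt} : PvNetC univ ρ K η ↔ PvNet ρ K η := by
  simp only [PvNetC, PvNet, mem_univ, true_and]

theorem pvm_netC_mono {c c' : Set Bool} {ρ ρ' : ℝ} {K K' : Set ℂ} {η η' : Conf PvPt} (hc : c ⊆ c') (hρ : ρ ≤ ρ') (hK : K' ⊆ K)
    (hη : η.pts ⊆ η'.pts) (h : PvNetC c ρ K η) : PvNetC c' ρ' K' η' := by
  intro z hz
  obtain ⟨p, hp, h1, h2⟩ := h z (hK hz)
  exact ⟨p, hη hp, hc h1, h2.trans_le hρ⟩

theorem pvm_net_mono {ρ ρ' : ℝ} {K K' : Set ℂ} {η η' : Conf PvPt} (hρ : ρ ≤ ρ') (hK : K' ⊆ K)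
    (hη : η.pts ⊆ η'.pts) (h : PvNet ρ K η) : PvNet ρ' K' η' := by
  intro z hz
  obtain ⟨p, hp, h2⟩ := h z (hK hz)
  exact ⟨p, hη hp, h2.trans_le hρ⟩

theorem pvm_net_of_grid {c : Set Bool} {δ L : ℝ} (hδ : 0 < δ) {N : ℕ} (hN : L / δ + 1 ≤ N) {w : ℂ} {η : Conf PvPt}
    (h : η ∈ pvmGrid c δ w N) : PvNetC c (2 * δ) (pvmSq w L) η := by
  intro z hz
  have h1 := pvm_Ix_mem hδ hN hz
  simp only [pvmGrid, mem_iInter] at h
  obtain ⟨p, hp, hpQ⟩ := h _ h1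
  exact ⟨p, hp, hpQ.2, pvm_Q_dist hpQ.1 (pvm_mem_Q hδ z)⟩

/-- the grid event is increasing -/
theorem pvm_grid_mono {c : Set Bool} {δ : ℝ} {w : ℂ} {N : ℕ} {η η' : Conf PvPt} (hη : η.pts ⊆ η'.pts) (h : η ∈ pvmGrid c δ w N) :
    η' ∈ pvmGrid c δ w N := by
  simp only [pvmGrid, mem_iInter] at h ⊢
  intro k hk
  obtain ⟨p, hp, hpQ⟩ := h k hk
  exact ⟨p, hη hp, hpQ⟩

/-- the grid event only reads the sites in the square of half side `(N+1) δ` -/
theorem pvm_grid_loc {c : Set Bool} {δ : ℝ} (hδ : 0 < δ) {w : ℂ} {N : ℕ} {η η' : Conf PvPt}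
    (hη : ∀ p : PvPt, p.1 ∈ pvmSq w ((N + 1) * δ) → (p ∈ η.pts ↔ p ∈ η'.pts)) : η ∈ pvmGrid c δ w N ↔ η' ∈ pvmGrid c δ w N := by
  simp only [pvmGrid, mem_iInter]
  constructor
  · intro h k hk
    obtain ⟨p, hp, hpQ⟩ := h k hk
    exact ⟨p, (hη p (pvm_Q_sub_Sq hδ hk hpQ.1)).1 hp, hpQ⟩
  · intro h k hk
    obtain ⟨p, hp, hpQ⟩ := h k hk
    exact ⟨p, (hη p (pvm_Q_sub_Sq hδ hk hpQ.1)).2 hp, hpQ⟩

theorem pvm_coin_ge {c : Set Bool} (hc : c.Nonempty) : 2⁻¹ ≤ pvCoin c := by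
  obtain ⟨b, hb⟩ := hc
  rw [← pvm_coin_single b]
  exact measure_mono (singleton_subset_iff.2 hb)

theorem pvm_Qc_int {ε δ : ℝ} (hδ : 0 ≤ δ) (k : ℤ × ℤ) {c : Set Bool} (hc : c.Nonempty) :
    ENNReal.ofReal (δ ^ 2 / (2 * ε ^ 2)) ≤ pvInt ε (pvmQ δ k ×ˢ c) := by
  rw [pvm_int_prod, pvm_Q_vol hδ]
  have e : ENNReal.ofReal (δ ^ 2 / (2 * ε ^ 2)) = ENNReal.ofReal ((ε⁻¹) ^ 2) * (ENNReal.ofReal (δ ^ 2) * 2⁻¹) := by
    have : (2 : ℝ≥0∞)⁻¹ = ENNReal.ofReal (2⁻¹) := by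
      rw [ENNReal.ofReal_inv_of_pos (by norm_num)]; simp
    rw [this, ← ENNReal.ofReal_mul (by positivity), ← ENNReal.ofReal_mul (by positivity)]
    congr 1
    rw [inv_pow, div_eq_mul_inv, mul_inv]; ring
  rw [e]
  gcongr
  exact pvm_coin_ge hc

/-- **probability of the grid event** (void probabilities + union bound) -/
theorem pvm_grid_prob {ε δ : ℝ} (hδ : 0 ≤ δ) {μ : Measure (Conf PvPt)} (h : IsPpp (pvInt ε) μ) {c : Set Bool} (hc : c.Nonempty)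
    (w : ℂ) (N : ℕ) : μ (pvmGrid c δ w N)ᶜ ≤ ENNReal.ofReal ((2 * N + 1) ^ 2 * Real.exp (-(δ ^ 2 / (2 * ε ^ 2)))) := by
  have h1 := pvm_fail_le h (pvmIdx (pvmIx δ w) N) (fun k => pvmQ δ k ×ˢ c) (fun k _ => pvm_Qc_meas δ k c)
    (ENNReal.ofReal (δ ^ 2 / (2 * ε ^ 2))) (fun k _ => pvm_Qc_int hδ k hc)
  refine h1.trans (le_of_eq ?_)
  rw [pvm_Idx_card, pvm_expNeg_ofReal (by positivity), ENNReal.ofReal_mul (by positivity)]
  congr 1
  rw [← ENNReal.ofReal_natCast]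
  congr 1
  push_cast; ring

/-! ## 4. the good mesh event (it does not depend on `ε`) -/

/-- **good mesh event** at resolution `ρ` on the square of centre `w` and half side `L` -/
noncomputable def pvmGood (c : Set Bool) (ρ : ℝ) (w : ℂ) (L : ℝ) : Set (Conf PvPt) := pvmGrid c (ρ / 2) w (⌈2 * L / ρ⌉₊ + 1)

theorem pvm_good_meas (c : Set Bool) (ρ : ℝ) (w : ℂ) (L : ℝ) : MeasurableSet (pvmGood c ρ w L) := pvm_grid_meas _ _ _ _

theorem pvm_good_net {c : Set Bool} {ρ L : ℝ} (hρ : 0 < ρ) {w : ℂ} {η : Conf PvPt} (h : η ∈ pvmGood c ρ w L) :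
    PvNetC c ρ (pvmSq w L) η := by
  have h1 : L / (ρ / 2) + 1 ≤ ((⌈2 * L / ρ⌉₊ + 1 : ℕ) : ℝ) := by
    push_cast
    have := Nat.le_ceil (2 * L / ρ)
    have e : L / (ρ / 2) = 2 * L / ρ := by field_simp
    rw [e]; linarith
  have h2 := pvm_net_of_grid (half_pos hρ) h1 h
  have e : 2 * (ρ / 2) = ρ := by ring
  rwa [e] at h2

theorem pvm_good_mono {c : Set Bool} {ρ L : ℝ} {w : ℂ} {η η' : Conf PvPt} (hη : η.pts ⊆ η'.pts) (h : η ∈ pvmGood c ρ w L) :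
    η' ∈ pvmGood c ρ w L := pvm_grid_mono hη h

theorem pvm_Sq_mono {w : ℂ} {L L' : ℝ} (h : L ≤ L') : pvmSq w L ⊆ pvmSq w L' := fun _ hz => ⟨hz.1.trans h, hz.2.trans h⟩

theorem pvm_ceil_le {x : ℝ} (hx : 0 ≤ x) : (⌈x⌉₊ : ℝ) ≤ x + 1 := (Nat.ceil_lt_add_one hx).le

/-- the good mesh event only reads the sites in the square of half side `L + 2 ρ` -/
theorem pvm_good_loc {c : Set Bool} {ρ L : ℝ} (hρ : 0 < ρ) (hL : 0 ≤ L) {w : ℂ} {η η' : Conf PvPt}
    (hη : ∀ p : PvPt, p.1 ∈ pvmSq w (L + 2 * ρ) → (p ∈ η.pts ↔ p ∈ η'.pts)) : η ∈ pvmGood c ρ w L ↔ η' ∈ pvmGood c ρ w L := by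
  refine pvm_grid_loc (half_pos hρ) fun p hp => hη p (pvm_Sq_mono ?_ hp)
  have h1 := pvm_ceil_le (x := 2 * L / ρ) (by positivity)
  push_cast
  have e : (2 * L / ρ) * (ρ / 2) = L := by field_simp
  nlinarith

/-- **Lemma 2.3, the void estimate**: `P(bad mesh) ≤ (4 L / ρ + 5)² exp (- ρ² / (8 ε²))` -/
theorem pvm_good_prob {ε ρ L : ℝ} (hρ : 0 < ρ) (hL : 0 ≤ L) {μ : Measure (Conf PvPt)} (h : IsPpp (pvInt ε) μ) {c : Set Bool}
    (hc : c.Nonempty) (w : ℂ) : μ (pvmGood c ρ w L)ᶜ ≤ ENNReal.ofReal ((4 * L / ρ + 5) ^ 2 * Real.exp (-(ρ ^ 2 / (8 * ε ^ 2)))) := by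
  refine (pvm_grid_prob (half_pos hρ).le h hc w _).trans (ENNReal.ofReal_le_ofReal ?_)
  have h1 := pvm_ceil_le (x := 2 * L / ρ) (by positivity)
  have e : (ρ / 2) ^ 2 / (2 * ε ^ 2) = ρ ^ 2 / (8 * ε ^ 2) := by
    rw [div_pow, div_div]; congr 1; ring
  rw [e]
  refine mul_le_mul_of_nonneg_right ?_ (Real.exp_pos _).le
  refine pow_le_pow_left₀ (by positivity) ?_ 2
  push_cast
  have e2 : 4 * L / ρ = 2 * (2 * L / ρ) := by ring
  rw [e2]; linarith

theorem pvm_exp_tendsto {a : ℝ} (ha : 0 < a) (C : ℝ) :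
    Tendsto (fun ε : ℝ => C * Real.exp (-(a / ε ^ 2))) (𝓝[>] 0) (𝓝 0) := by
  have h1 : Tendsto (fun ε : ℝ => ε⁻¹) (𝓝[>] 0) atTop := tendsto_inv_nhdsGT_zero
  have h2 : Tendsto (fun ε : ℝ => a * (ε⁻¹) ^ 2) (𝓝[>] 0) atTop :=
    Tendsto.const_mul_atTop ha ((tendsto_pow_atTop (by norm_num)).comp h1)
  have h3 : Tendsto (fun ε : ℝ => Real.exp (-(a * (ε⁻¹) ^ 2))) (𝓝[>] 0) (𝓝 0) :=
    Real.tendsto_exp_atBot.comp (tendsto_neg_atTop_atBot.comp h2)
  have h4 := h3.const_mul C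
  rw [mul_zero] at h4
  refine h4.congr fun ε => ?_
  rw [inv_pow, div_eq_mul_inv]

/-- the bad mesh event has vanishing probability -/
theorem pvm_good_tendsto {ρ L : ℝ} (hρ : 0 < ρ) (hL : 0 ≤ L) {μ : ℝ → Measure (Conf PvPt)} (h : ∀ ε, 0 < ε → IsPpp (pvInt ε) (μ ε))
    {c : Set Bool} (hc : c.Nonempty) (w : ℂ) : Tendsto (fun ε => μ ε (pvmGood c ρ w L)ᶜ) (𝓝[>] 0) (𝓝 0) := by
  have h1 := pvm_exp_tendsto (a := ρ ^ 2 / 8) (by positivity) ((4 * L / ρ + 5) ^ 2)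
  have h2 := (ENNReal.continuous_ofReal.tendsto 0).comp h1
  rw [ENNReal.ofReal_zero] at h2
  refine tendsto_of_tendsto_of_tendsto_of_le_of_le' tendsto_const_nhds h2 (Eventually.of_forall fun _ => zero_le) ?_
  filter_upwards [self_mem_nhdsWithin] with ε hε
  refine (pvm_good_prob hρ hL (h ε hε) hc w).trans (le_of_eq ?_)
  simp only [Function.comp]
  rw [div_div]

/-- bounded sets: a measurable, increasing, local event of probability tending to one on which `K` is `ρ`-dense in sites of each colour of `c` -/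
theorem pvm_net_bdd {K : Set ℂ} (hK : Bornology.IsBounded K) {ρ : ℝ} (hρ : 0 < ρ) (c : Set Bool) :
    ∃ L : ℝ, 0 ≤ L ∧ K ⊆ pvmSq 0 L ∧ ∀ η ∈ pvmGood c ρ 0 L, PvNetC c ρ K η := by
  obtain ⟨L, hL⟩ := hK.exists_norm_le
  have hsub : K ⊆ pvmSq 0 (max L 0) := by
    intro z hz
    have := hL z hz
    refine ⟨?_, ?_⟩
    · rw [Complex.zero_re, sub_zero]; exact ((Complex.abs_re_le_norm z).trans this).trans (le_max_left _ _)
    · rw [Complex.zero_im, sub_zero]; exact ((Complex.abs_im_le_norm z).trans this).trans (le_max_left _ _)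
  exact ⟨max L 0, le_max_right _ _, hsub, fun η hη => pvm_netC_mono subset_rfl le_rfl hsub subset_rfl (pvm_good_net hρ hη)⟩

theorem pvm_net_eqns_cite : True := by
  have := @pvmOcc.eq_1.{0}
  have := @pvmW.eq_1.{0}
  have := @pvmR.eq_1
  have := @pvmQ.eq_1
  have := @pvmIx.eq_1
  have := @pvmIdx.eq_1
  have := @pvmSq.eq_1
  have := @pvmGrid.eq_1
  have := @PvNetC.eq_1
  have := @PvNet.eq_1
  have := @pvmGood.eq_1
  trivial

end Claimed.Agent.R289
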