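import Claimed.Agent.R289.PppPv
import Claimed.Agent.R289.Mesh.Net

/-!
# Row 289 (S0537), box MESH, file Mesh/Stat : LEMMA 2.3 (iii), M4 = STATIONARY RANDOM MEASURES      (owner helper107; prefix `pvms_`)

A RANDOM MEASURE is a map `M : Ω → Measure ℂ` such that `η ↦ M η B` is a.e. measurable for every Borel set `B` (e.g. `Measure.sum fun t => w t • Measure.dirac (z t)`).
* abstract (any measure `P` with a measure preserving action `τ` of the translations): `pvmsMean P M hM` (mean measure), `pvms_mean_apply`,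
  **`pvms_stat`** : covariant (`M (τ a η) = (M η).map (· + a)` a.s.) + finite mean on the unit square `pvmsU` ⟹ `∫⁻ M η B ∂P = θ * volume B`, `θ = ∫⁻ M η pvmsU ∂P`   (uniqueness of Haar measure)
  `pvms_collar` : comparison of two intensities through collars (first half of the proof of TEX[fields:closed-prop])
* the coloured Poisson process `pvP ε`: `pvmsTh M ε` (intensity), `pvms_pv_stat`, `pvms_pv_scale` (change of mesh), **`pvms_intensity`** = TEX (prob:barycenter-intensity): `E_ε M(B) = ε^(k-2) θ₁ Area(B)` for a covariant random measure, homogeneous of degree `k`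
  **`pvms_tail`** = second half of TEX[fields:closed-prop]: a decreasing family `M D` (`D` = lower cut-off of a length mark), homogeneous of degree `2` jointly in the cut-off, a.s. vanishing as `D → ∞`: `E_ε (M a)(B) → 0` as `ε ↓ 0`.
-/

set_option autoImplicit false
set_option linter.unusedSectionVars false

namespace Claimed.Agent.R289

open MeasureTheory ProbabilityTheory Set Filter Topology
open scoped ENNReal NNReal

/-- the unit square `[0,1) × [0,1)` -/
def pvmsU : Set ℂ := pvmQ 1 (0, 0)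

theorem pvms_U_meas : MeasurableSet pvmsU := pvm_Q_meas _ _

theorem pvms_U_vol : volume pvmsU = 1 := by
  unfold pvmsU
  rw [pvm_Q_vol zero_le_one]; simp

/-- the lattice point of index `k` -/
def pvmsZ (k : ℤ × ℤ) : ℂ := ⟨(k.1 : ℝ), (k.2 : ℝ)⟩

theorem pvms_Q_preimage (k : ℤ × ℤ) : (fun z : ℂ => pvmsZ k + z) ⁻¹' pvmQ 1 k = pvmsU := by
  ext z
  simp only [pvmsU, pvmQ, pvmR, pvmsZ, mem_preimage, mem_ofPred_eq, mem_Ico, Complex.add_re, Complex.add_im, mul_one, Int.cast_zero, zero_add]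
  constructor
  · rintro ⟨⟨h1, h2⟩, h3, h4⟩
    exact ⟨⟨by linarith, by linarith⟩, by linarith, by linarith⟩
  · rintro ⟨⟨h1, h2⟩, h3, h4⟩
    exact ⟨⟨by linarith, by linarith⟩, by linarith, by linarith⟩

section abstract

variable {Ω : Type*} [MeasurableSpace Ω]

/-- the mean measure of a random measure -/
noncomputable def pvmsMean (P : Measure Ω) (M : Ω → Measure ℂ) (hM : ∀ B, MeasurableSet B → AEMeasurable (fun η => M η B) P) : Measure ℂ :=
  Measure.ofMeasurable (fun B _ => ∫⁻ η, M η B ∂P) (by simp)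
    (fun f hf hd => by
      have : ∀ η, M η (⋃ i, f i) = ∑' i, M η (f i) := fun η => measure_iUnion hd hf
      simp_rw [this]
      exact lintegral_tsum fun i => hM _ (hf i))

theorem pvms_mean_apply (P : Measure Ω) (M : Ω → Measure ℂ) (hM : ∀ B, MeasurableSet B → AEMeasurable (fun η => M η B) P)
    {B : Set ℂ} (hB : MeasurableSet B) : pvmsMean P M hM B = ∫⁻ η, M η B ∂P :=
  Measure.ofMeasurable_apply B hB

variable {P : Measure Ω} {M : Ω → Measure ℂ} {τ : ℂ → Ω → Ω}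

/-- the mean measure of a covariant random measure is translation invariant -/
theorem pvms_mean_inv (hM : ∀ B, MeasurableSet B → AEMeasurable (fun η => M η B) P) (hτ : ∀ a, MeasurePreserving (τ a) P P)
    (hcov : ∀ a, ∀ᵐ η ∂P, M (τ a η) = (M η).map (fun z => z + a)) : (pvmsMean P M hM).IsAddLeftInvariant := ⟨fun a => by
  ext B hB
  rw [Measure.map_apply (measurable_const_add a) hB, pvms_mean_apply _ _ _ ((measurable_const_add a) hB), pvms_mean_apply _ _ _ hB]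
  have h1 : ∫⁻ η, M η B ∂P = ∫⁻ η, M (τ a η) B ∂P := by
    conv_lhs => rw [← (hτ a).map_eq]
    exact lintegral_map' (by rw [(hτ a).map_eq]; exact hM B hB) (hτ a).measurable.aemeasurable
  rw [h1]
  refine lintegral_congr_ae ?_
  filter_upwards [hcov a] with η hη
  rw [hη, Measure.map_apply (measurable_add_const a) hB]
  congr 1
  ext z
  simp only [mem_preimage, add_comm]⟩

/-- compact sets are covered by finitely many unit boxes -/
theorem pvms_cover {K : Set ℂ} (hK : Bornology.IsBounded K) : ∃ I : Finset (ℤ × ℤ), K ⊆ ⋃ k ∈ I, pvmQ 1 k := by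
  obtain ⟨R, hR⟩ := hK.exists_norm_le
  obtain ⟨N, hN⟩ := exists_nat_ge (|R| / 1 + 1)
  refine ⟨pvmIdx (pvmIx 1 0) N, fun z hz => ?_⟩
  have hz' : z ∈ pvmSq 0 |R| := by
    have h := (hR z hz).trans (le_abs_self R)
    exact ⟨by simpa using (Complex.abs_re_le_norm z).trans h, by simpa using (Complex.abs_im_le_norm z).trans h⟩
  exact mem_biUnion (pvm_Ix_mem one_pos hN hz') (pvm_mem_Q one_pos z)

/-- **STAT**: a covariant random measure with finite mean on the unit square has mean measure `θ * Area` -/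
theorem pvms_stat (hM : ∀ B, MeasurableSet B → AEMeasurable (fun η => M η B) P) (hτ : ∀ a, MeasurePreserving (τ a) P P)
    (hcov : ∀ a, ∀ᵐ η ∂P, M (τ a η) = (M η).map (fun z => z + a)) (hfin : ∫⁻ η, M η pvmsU ∂P ≠ ∞)
    {B : Set ℂ} (hB : MeasurableSet B) : ∫⁻ η, M η B ∂P = (∫⁻ η, M η pvmsU ∂P) * volume B := by
  have hinv := pvms_mean_inv hM hτ hcov
  have hbox : ∀ k, pvmsMean P M hM (pvmQ 1 k) = ∫⁻ η, M η pvmsU ∂P := by
    intro k
    rw [← pvms_mean_apply P M hM pvms_U_meas, ← pvms_Q_preimage k, measure_preimage_add]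
  have : IsFiniteMeasureOnCompacts (pvmsMean P M hM) := ⟨fun K hK => by
    obtain ⟨I, hI⟩ := pvms_cover hK.isBounded
    refine lt_of_le_of_lt ((measure_mono hI).trans (measure_biUnion_finset_le I _)) ?_
    refine ENNReal.sum_lt_top.2 fun k _ => ?_
    rw [hbox k]; exact lt_top_iff_ne_top.2 hfin⟩
  have key := Measure.isAddLeftInvariant_eq_smul (pvmsMean P M hM) (volume : Measure ℂ)
  have hU : ∫⁻ η, M η pvmsU ∂P = ((pvmsMean P M hM).addHaarScalarFactor volume : ℝ≥0∞) := by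
    rw [← pvms_mean_apply P M hM pvms_U_meas]
    conv_lhs => rw [key]
    rw [Measure.smul_apply, pvms_U_vol]
    simp
  rw [← pvms_mean_apply P M hM hB]
  conv_lhs => rw [key]
  rw [Measure.smul_apply, hU]
  rfl

/-- **COLLARS**: if the mean of `M` on the squares `[0,R)²` is bounded by the mean of `N` on their `s`-neighbourhoods, the intensity of `M` is at most the intensity of `N`      (TEX[fields:closed-prop], first half) -/
theorem pvms_collar {N : Ω → Measure ℂ} (hM : ∀ B, MeasurableSet B → AEMeasurable (fun η => M η B) P)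
    (hN : ∀ B, MeasurableSet B → AEMeasurable (fun η => N η B) P) (hτ : ∀ a, MeasurePreserving (τ a) P P)
    (hcov : ∀ a, ∀ᵐ η ∂P, M (τ a η) = (M η).map (fun z => z + a)) (hcovN : ∀ a, ∀ᵐ η ∂P, N (τ a η) = (N η).map (fun z => z + a))
    (hfin : ∫⁻ η, N η pvmsU ∂P ≠ ∞) {s : ℝ} (hs : 0 ≤ s)
    (h : ∀ R : ℕ, 1 ≤ R → ∫⁻ η, M η (pvmR 0 R 0 R) ∂P ≤ ∫⁻ η, N η (pvmR (-s) (R + s) (-s) (R + s)) ∂P) :
    ∫⁻ η, M η pvmsU ∂P ≤ ∫⁻ η, N η pvmsU ∂P := by
  have hNR : ∀ R : ℕ, ∫⁻ η, N η (pvmR (-s) (R + s) (-s) (R + s)) ∂P = (∫⁻ η, N η pvmsU ∂P) * ENNReal.ofReal ((R + 2 * s) ^ 2) := by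
    intro R
    have h0 : (0 : ℝ) ≤ (R : ℝ) + s - -s := by have : (0 : ℝ) ≤ R := Nat.cast_nonneg R; linarith
    rw [pvms_stat hN hτ hcovN hfin (pvm_R_meas _ _ _ _), pvm_R_vol, ← ENNReal.ofReal_mul h0]
    congr 2
    ring
  have hU : pvmsU = pvmR 0 ((1 : ℕ) : ℝ) 0 ((1 : ℕ) : ℝ) := by
    unfold pvmsU pvmQ; simp
  have hfinM : ∫⁻ η, M η pvmsU ∂P ≠ ∞ := by
    refine ne_top_of_le_ne_top ?_ (hU ▸ h 1 le_rfl)
    rw [hNR]
    exact ENNReal.mul_ne_top hfin ENNReal.ofReal_ne_top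
  have hMR : ∀ R : ℕ, ∫⁻ η, M η (pvmR 0 R 0 R) ∂P = (∫⁻ η, M η pvmsU ∂P) * ENNReal.ofReal ((R : ℝ) ^ 2) := by
    intro R
    have h0 : (0 : ℝ) ≤ (R : ℝ) - 0 := by have : (0 : ℝ) ≤ R := Nat.cast_nonneg R; linarith
    rw [pvms_stat hM hτ hcov hfinM (pvm_R_meas _ _ _ _), pvm_R_vol, ← ENNReal.ofReal_mul h0]
    congr 2
    ring
  rw [← ENNReal.toReal_le_toReal hfinM hfin]
  set x := (∫⁻ η, M η pvmsU ∂P).toReal with hx
  set y := (∫⁻ η, N η pvmsU ∂P).toReal with hy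
  have hy0 : 0 ≤ y := ENNReal.toReal_nonneg
  have hR : ∀ R : ℕ, 1 ≤ R → x ≤ y * (1 + 2 * s / R) ^ 2 := by
    intro R hR1
    have h1 := h R hR1
    rw [hNR, hMR] at h1
    have h2 := (ENNReal.toReal_le_toReal (ENNReal.mul_ne_top hfinM ENNReal.ofReal_ne_top) (ENNReal.mul_ne_top hfin ENNReal.ofReal_ne_top)).2 h1
    rw [ENNReal.toReal_mul, ENNReal.toReal_mul, ENNReal.toReal_ofReal (by positivity), ENNReal.toReal_ofReal (by positivity)] at h2
    have hR0 : (0 : ℝ) < R := by exact_mod_cast hR1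
    have e : y * (1 + 2 * s / R) ^ 2 = y * ((R : ℝ) + 2 * s) ^ 2 / (R : ℝ) ^ 2 := by
      field_simp
    rw [e, le_div_iff₀ (by positivity)]
    exact h2
  have ht : Tendsto (fun R : ℕ => y * (1 + 2 * s / R) ^ 2) atTop (𝓝 (y * (1 + 0) ^ 2)) :=
    (((tendsto_const_div_atTop_nhds_zero_nat (2 * s)).const_add 1).pow 2).const_mul y
  have := ge_of_tendsto ht ((eventually_ge_atTop 1).mono hR)
  simpa using this

end abstract

/-! ## the coloured Poisson process -/

/-- the intensity of a random measure at mesh `ε` -/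
noncomputable def pvmsTh (M : Conf PvPt → Measure ℂ) (ε : ℝ) : ℝ≥0∞ := ∫⁻ η, M η pvmsU ∂(pvP ε)

theorem pvms_tr (ε : ℝ) (a : ℂ) : MeasurePreserving (cfMap fun z => z + a) (pvP ε) (pvP ε) :=
  ⟨measurable_cfMap (measurable_add_const a), pvP_translate a ε⟩

/-- **STAT** for the coloured Poisson process -/
theorem pvms_pv_stat {M : Conf PvPt → Measure ℂ} {ε : ℝ} (hM : ∀ B, MeasurableSet B → AEMeasurable (fun η => M η B) (pvP ε))
    (hcov : ∀ a : ℂ, ∀ᵐ η ∂(pvP ε), M (cfMap (fun z => z + a) η) = (M η).map (fun z => z + a)) (hfin : pvmsTh M ε ≠ ∞)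
    {B : Set ℂ} (hB : MeasurableSet B) : ∫⁻ η, M η B ∂(pvP ε) = pvmsTh M ε * volume B :=
  pvms_stat (τ := fun a => cfMap fun z => z + a) hM (pvms_tr ε) hcov hfin hB

/-- **SCALE**: change of mesh -/
theorem pvms_pv_scale {M M' : Conf PvPt → Measure ℂ} {c ε κ : ℝ} (hc : c ≠ 0)
    (hM' : ∀ B, MeasurableSet B → AEMeasurable (fun η => M' η B) (pvP (c * ε)))
    (hsc : ∀ᵐ η ∂(pvP ε), M' (cfMap (fun z => c • z) η) = ENNReal.ofReal κ • (M η).map (fun z => c • z))
    {B : Set ℂ} (hB : MeasurableSet B) :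
    ∫⁻ η, M' η B ∂(pvP (c * ε)) = ENNReal.ofReal κ * ∫⁻ η, M η ((fun z => c • z) ⁻¹' B) ∂(pvP ε) := by
  have hm : Measurable fun z : ℂ => c • z := measurable_const_smul c
  rw [← lintegral_const_mul' _ _ ENNReal.ofReal_ne_top]
  conv_lhs => rw [← pvP_scale hc ε]
  rw [lintegral_map' (by rw [pvP_scale hc ε]; exact hM' B hB) (measurable_cfMap hm).aemeasurable]
  refine lintegral_congr_ae ?_
  filter_upwards [hsc] with η hη
  rw [hη, Measure.smul_apply, Measure.map_apply hm hB, smul_eq_mul]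

theorem pvms_vol_smul {c : ℝ} (hc : 0 < c) (B : Set ℂ) : volume ((fun z : ℂ => c • z) ⁻¹' B) = ENNReal.ofReal ((c ^ 2)⁻¹) * volume B := by
  have := Measure.addHaar_preimage_smul (volume : Measure ℂ) hc.ne' B
  rw [Complex.finrank_real_complex, abs_of_pos (by positivity)] at this
  exact this

/-- **TEX (prob:barycenter-intensity)**: a translation covariant random measure, homogeneous of degree `k`, with finite intensity `θ₁` at mesh one: `E_ε M(B) = ε^(k-2) θ₁ Area(B)` -/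
theorem pvms_intensity {M : Conf PvPt → Measure ℂ} {k : ℝ} (hM : ∀ ε : ℝ, 0 < ε → ∀ B, MeasurableSet B → AEMeasurable (fun η => M η B) (pvP ε))
    (hcov : ∀ a : ℂ, ∀ᵐ η ∂(pvP 1), M (cfMap (fun z => z + a) η) = (M η).map (fun z => z + a))
    (hsc : ∀ c : ℝ, 0 < c → ∀ᵐ η ∂(pvP 1), M (cfMap (fun z => c • z) η) = ENNReal.ofReal (c ^ k) • (M η).map (fun z => c • z))
    (hfin : pvmsTh M 1 ≠ ∞) {ε : ℝ} (hε : 0 < ε) {B : Set ℂ} (hB : MeasurableSet B) :
    ∫⁻ η, M η B ∂(pvP ε) = ENNReal.ofReal (ε ^ (k - 2)) * pvmsTh M 1 * volume B := by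
  have h1 := pvms_pv_scale (M := M) (M' := M) (c := ε) (ε := 1) (κ := ε ^ k) hε.ne' (by rw [mul_one]; exact hM ε hε) (hsc ε hε) hB
  rw [mul_one] at h1
  rw [h1, pvms_pv_stat (hM 1 one_pos) hcov hfin ((measurable_const_smul ε) hB), pvms_vol_smul hε]
  have e : ENNReal.ofReal (ε ^ (k - 2)) = ENNReal.ofReal (ε ^ k) * ENNReal.ofReal ((ε ^ 2)⁻¹) := by
    rw [← ENNReal.ofReal_mul (by positivity), Real.rpow_sub hε, div_eq_mul_inv]
    norm_num
  rw [e]
  ring

/-- **TEX[fields:closed-prop], second half**: `M D` = the part of a random measure carried by the objects of size `≥ D`; jointly homogeneous of degree two; finite intensity; the part of size `≥ D` in the unit square vanishes a.s. as `D → ∞`.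
Then the mean mass of the objects of size `≥ a` in a fixed set of finite area tends to zero with the mesh. -/
theorem pvms_tail {M : ℝ → Conf PvPt → Measure ℂ}
    (hM : ∀ D ε : ℝ, 0 < ε → ∀ B, MeasurableSet B → AEMeasurable (fun η => M D η B) (pvP ε))
    (hcov : ∀ (D : ℝ) (a : ℂ), ∀ᵐ η ∂(pvP 1), M D (cfMap (fun z => z + a) η) = (M D η).map (fun z => z + a))
    (hsc : ∀ D c : ℝ, 0 < c → ∀ᵐ η ∂(pvP 1), M (c * D) (cfMap (fun z => c • z) η) = ENNReal.ofReal (c ^ 2) • (M D η).map (fun z => c • z))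
    (hanti : ∀ D : ℝ, 0 ≤ D → ∀ᵐ η ∂(pvP 1), M D η pvmsU ≤ M 0 η pvmsU) (hfin : pvmsTh (M 0) 1 ≠ ∞)
    (hlim : ∀ᵐ η ∂(pvP 1), Tendsto (fun D => M D η pvmsU) atTop (𝓝 0))
    {a : ℝ} (ha : 0 < a) {B : Set ℂ} (hB : MeasurableSet B) (hBfin : volume B ≠ ∞) :
    Tendsto (fun ε => ∫⁻ η, M a η B ∂(pvP ε)) (𝓝[>] 0) (𝓝 0) := by
  have hθ : Tendsto (fun D => pvmsTh (M D) 1) atTop (𝓝 0) := by
    have := tendsto_lintegral_filter_of_dominated_convergence' (μ := pvP 1) (l := atTop) (F := fun D η => M D η pvmsU) (f := fun _ => 0)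
      (fun η => M 0 η pvmsU) (Eventually.of_forall fun D => hM D 1 one_pos _ pvms_U_meas) ((eventually_ge_atTop 0).mono hanti) hfin hlim
    simpa [pvmsTh] using this
  have hfinD : ∀ D : ℝ, 0 ≤ D → pvmsTh (M D) 1 ≠ ∞ := fun D hD => ne_top_of_le_ne_top hfin (lintegral_mono_ae (hanti D hD))
  have key : ∀ ε : ℝ, 0 < ε → ∫⁻ η, M a η B ∂(pvP ε) = pvmsTh (M (a / ε)) 1 * volume B := by
    intro ε hε
    have e : ε * (a / ε) = a := by field_simp
    have h1 := pvms_pv_scale (M := M (a / ε)) (M' := M a) (c := ε) (ε := 1) (κ := ε ^ 2) hε.ne' (by rw [mul_one]; exact hM a ε hε)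
      (by have := hsc (a / ε) ε hε; rwa [e] at this) hB
    rw [mul_one] at h1
    rw [h1, pvms_pv_stat (hM _ 1 one_pos) (hcov _) (hfinD _ (by positivity)) ((measurable_const_smul ε) hB), pvms_vol_smul hε]
    have e2 : ENNReal.ofReal (ε ^ 2) * ENNReal.ofReal ((ε ^ 2)⁻¹) = 1 := by
      rw [← ENNReal.ofReal_mul (by positivity), mul_inv_cancel₀ (by positivity), ENNReal.ofReal_one]
    calc ENNReal.ofReal (ε ^ 2) * (pvmsTh (M (a / ε)) 1 * (ENNReal.ofReal ((ε ^ 2)⁻¹) * volume B))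
        = (ENNReal.ofReal (ε ^ 2) * ENNReal.ofReal ((ε ^ 2)⁻¹)) * (pvmsTh (M (a / ε)) 1 * volume B) := by ring
      _ = _ := by rw [e2, one_mul]
  have hdiv : Tendsto (fun ε : ℝ => a / ε) (𝓝[>] 0) atTop := by
    simpa [div_eq_mul_inv] using tendsto_inv_nhdsGT_zero.const_mul_atTop ha
  have h2 : Tendsto (fun ε : ℝ => pvmsTh (M (a / ε)) 1 * volume B) (𝓝[>] 0) (𝓝 (0 * volume B)) :=
    ENNReal.Tendsto.mul_const (hθ.comp hdiv) (Or.inr hBfin)
  rw [zero_mul] at h2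
  refine h2.congr' ?_
  filter_upwards [self_mem_nhdsWithin] with ε hε
  exact (key ε hε).symm

/-! ## CAMPBELL: from sets to functions -/

/-- **CAMPBELL, generic**: if the mean of `M η B` is `θ * ν B` for all Borel sets, the mean of `∫ f dM η` is `θ * ∫ f dν` for all Borel `f ≥ 0` (and `η ↦ ∫ f dM η` is a.e. measurable) -/
theorem pvms_campbell_gen {Ω : Type*} [MeasurableSpace Ω] {P : Measure Ω} {M : Ω → Measure ℂ} {ν : Measure ℂ} {θ : ℝ≥0∞}
    (hM : ∀ B, MeasurableSet B → AEMeasurable (fun η => M η B) P) (h : ∀ B, MeasurableSet B → ∫⁻ η, M η B ∂P = θ * ν B)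
    {f : ℂ → ℝ≥0∞} (hf : Measurable f) :
    AEMeasurable (fun η => ∫⁻ z, f z ∂(M η)) P ∧ ∫⁻ η, ∫⁻ z, f z ∂(M η) ∂P = θ * ∫⁻ z, f z ∂ν := by
  refine Measurable.ennreal_induction
    (motive := fun f => AEMeasurable (fun η => ∫⁻ z, f z ∂(M η)) P ∧ ∫⁻ η, ∫⁻ z, f z ∂(M η) ∂P = θ * ∫⁻ z, f z ∂ν) ?_ ?_ ?_ hf
  · intro c s hs
    simp only [lintegral_indicator_const hs]
    refine ⟨(hM _ hs).const_mul c, ?_⟩
    rw [lintegral_const_mul'' c (hM _ hs), h _ hs]; ring
  · intro f g _ hf _ ihf ihg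
    simp only [Pi.add_apply, lintegral_add_left hf]
    refine ⟨ihf.1.add ihg.1, ?_⟩
    rw [lintegral_add_left' ihf.1, ihf.2, ihg.2, mul_add]
  · intro f hf hmono ih
    have e : ∀ μ' : Measure ℂ, ∫⁻ z, (⨆ n, f n z) ∂μ' = ⨆ n, ∫⁻ z, f n z ∂μ' := fun μ' => lintegral_iSup hf hmono
    simp only [e]
    refine ⟨AEMeasurable.iSup fun n => (ih n).1, ?_⟩
    rw [lintegral_iSup' (fun n => (ih n).1) (ae_of_all _ fun η n m hnm => lintegral_mono (hmono hnm))]
    simp only [(ih _).2, ENNReal.mul_iSup]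

/-- **CAMPBELL** for a covariant random measure -/
theorem pvms_campbell {Ω : Type*} [MeasurableSpace Ω] {P : Measure Ω} {M : Ω → Measure ℂ} {τ : ℂ → Ω → Ω}
    (hM : ∀ B, MeasurableSet B → AEMeasurable (fun η => M η B) P) (hτ : ∀ a, MeasurePreserving (τ a) P P)
    (hcov : ∀ a, ∀ᵐ η ∂P, M (τ a η) = (M η).map (fun z => z + a)) (hfin : ∫⁻ η, M η pvmsU ∂P ≠ ∞)
    {f : ℂ → ℝ≥0∞} (hf : Measurable f) : ∫⁻ η, ∫⁻ z, f z ∂(M η) ∂P = (∫⁻ η, M η pvmsU ∂P) * ∫⁻ z, f z :=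
  (pvms_campbell_gen hM (fun _ hB => pvms_stat hM hτ hcov hfin hB) hf).2

/-- **CAMPBELL at mesh `ε`** for a translation covariant random measure, homogeneous of degree `k`, with finite intensity at mesh one:
`E_ε ∫ f dM = ε^(k-2) θ₁ ∫ f`.      (`k = 2`, `M = ∑_t |q_t|² δ_{z_t}`: the right side of the Bessel bounds is `θ₁ ‖g‖₂²`, uniformly in the mesh) -/
theorem pvms_pv_campbell {M : Conf PvPt → Measure ℂ} {k : ℝ} (hM : ∀ ε : ℝ, 0 < ε → ∀ B, MeasurableSet B → AEMeasurable (fun η => M η B) (pvP ε))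
    (hcov : ∀ a : ℂ, ∀ᵐ η ∂(pvP 1), M (cfMap (fun z => z + a) η) = (M η).map (fun z => z + a))
    (hsc : ∀ c : ℝ, 0 < c → ∀ᵐ η ∂(pvP 1), M (cfMap (fun z => c • z) η) = ENNReal.ofReal (c ^ k) • (M η).map (fun z => c • z))
    (hfin : pvmsTh M 1 ≠ ∞) {ε : ℝ} (hε : 0 < ε) {f : ℂ → ℝ≥0∞} (hf : Measurable f) :
    AEMeasurable (fun η => ∫⁻ z, f z ∂(M η)) (pvP ε) ∧
      ∫⁻ η, ∫⁻ z, f z ∂(M η) ∂(pvP ε) = ENNReal.ofReal (ε ^ (k - 2)) * pvmsTh M 1 * ∫⁻ z, f z :=
  pvms_campbell_gen (hM ε hε) (fun _ hB => pvms_intensity hM hcov hsc hfin hε hB) hf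

/-- house rule: the equation lemmas of the defs of this file are generated HERE -/
theorem pvms_eqns_cite : True := by
  have := @pvmsU.eq_1
  have := @pvmsZ.eq_1
  have := @pvmsMean.eq_1.{0}
  have := @pvmsTh.eq_1
  trivial

end Claimed.Agent.R289
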