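import Claimed.Agent.R289.Mesh.Cnt

/-!
# Row 289 (S0537), box MESH, file Mesh/Mom : LEMMA 2.3 (ii)-(iii), MOMENTS OF LOCAL WEIGHTS, ABSTRACT FORM      (owner helper127; prefix `pvm_`)

Everything with MEASURABLE MAJORANTS (no measurability is ever asked of the weights themselves) and natural exponents (no roots, no `rpow`).
* `pvm_pow_sum_le` (power mean in `ℝ≥0∞`), `pvm_setLint_le` (Cauchy-Schwarz without roots)
* model free: `pvmSel A Y` = value of `Y j` at the first `j` with `o ∈ A j` (`∞` if none): `pvm_sel_meas`, `pvm_sel_ge`, `pvm_sel_pow`, `pvm_sel_lint`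
* **`pvmZ k d c0 ε w`** = universal tile majorant.   USE: `pvm_Z_ge`: if for every `j`, on `pvmGood univ ((j+1) ε) w (c0 (j+1) ε)`, `x ≤ (c0 (j+1) ε)^k N(pvmSqP w (c0 (j+1) ε))^d`, then `x ≤ pvmZ k d c0 ε w η`.
  **`pvm_Z_mom`**: `∃ K, ∀ ε μ w, E Z^p ≤ K ε^{kp}` (K depends on `p k d c0` only)
* tiles: `pvm_sum_mom` (`E (∑ Z_i)^p ≤ n^p K`), `pvm_sum_le_tiles` (a finite family attached to tiles), `pvmTc`, `pvm_tile_cover`
* **`pvmZS k d c0 ε w s`** = majorant of the square `pvmSq w s`; **`pvm_ZS_mom`** = (prob:mesh-moments): `E Z_S^p ≤ K (ε^k ((s+ε)/ε)²)^p`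
-/

set_option autoImplicit false
set_option linter.unusedSectionVars false

namespace Claimed.Agent.R289

open MeasureTheory ProbabilityTheory Set Filter Topology
open scoped ENNReal NNReal

/-! ## 0. elementary inequalities in `ℝ≥0∞` -/

theorem pvm_le_add_sq_div (x l : ℝ≥0∞) (h0 : l ≠ 0) (ht : l ≠ ∞) : x ≤ l + x ^ 2 * l⁻¹ := by
  rcases le_total x l with h | h
  · exact h.trans le_self_add
  · refine le_trans ?_ le_add_self
    rw [← div_eq_mul_inv, ENNReal.le_div_iff_mul_le (Or.inl h0) (Or.inl ht), sq]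
    gcongr

/-- power mean inequality -/
theorem pvm_pow_sum_le {ι : Type*} (s : Finset ι) (x : ι → ℝ≥0∞) (p : ℕ) :
    (∑ i ∈ s, x i) ^ (p + 1) ≤ (s.card : ℝ≥0∞) ^ p * ∑ i ∈ s, x i ^ (p + 1) := by
  by_cases htop : ∃ i ∈ s, x i = ∞
  · obtain ⟨i, hi, hx⟩ := htop
    have h1 : ∑ i ∈ s, x i ^ (p + 1) = ∞ := by
      rw [ENNReal.sum_eq_top]; exact ⟨i, hi, by rw [hx]; simp⟩
    have h2 : (s.card : ℝ≥0∞) ^ p ≠ 0 := by
      apply pow_ne_zero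
      exact_mod_cast (Finset.card_pos.2 ⟨i, hi⟩).ne'
    rw [h1, ENNReal.mul_top h2]; exact le_top
  · push Not at htop
    rcases s.eq_empty_or_nonempty with rfl | hne
    · simp
    have hx : ∀ i ∈ s, x i = ((x i).toNNReal : ℝ≥0∞) := fun i hi => (ENNReal.coe_toNNReal (htop i hi)).symm
    have h1 := pow_sum_div_card_le_sum_pow (s := s) (f := fun i => ((x i).toNNReal : ℝ≥0)) (fun i _ => zero_le) p
    have hc : (0 : ℝ≥0) < (s.card : ℝ≥0) ^ p := by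
      apply pow_pos; exact_mod_cast Finset.card_pos.2 hne
    rw [div_le_iff₀ hc] at h1
    have e1 : ∑ i ∈ s, x i = ((∑ i ∈ s, (x i).toNNReal : ℝ≥0) : ℝ≥0∞) := by
      push_cast; exact Finset.sum_congr rfl hx
    have e2 : ∑ i ∈ s, x i ^ (p + 1) = ((∑ i ∈ s, (x i).toNNReal ^ (p + 1) : ℝ≥0) : ℝ≥0∞) := by
      push_cast; exact Finset.sum_congr rfl fun i hi => by rw [← hx i hi]
    rw [e1, e2]
    have h2 : ((∑ i ∈ s, (x i).toNNReal) ^ (p + 1) : ℝ≥0) ≤ (s.card : ℝ≥0) ^ p * ∑ i ∈ s, (x i).toNNReal ^ (p + 1) := by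
      rw [mul_comm]; exact h1
    exact_mod_cast h2

/-! ## 1. selection of the first good scale (model free) -/

section sel

variable {Ω : Type*} [MeasurableSpace Ω]

/-- the value `Y j` at the first `j` with `o ∈ A j`; `∞` if there is none -/
noncomputable def pvmSel (A : ℕ → Set Ω) (Y : ℕ → Ω → ℝ≥0∞) (o : Ω) : ℝ≥0∞ :=
  (∑' j, (disjointed A j).indicator (Y j) o) + (⋃ j, A j)ᶜ.indicator (fun _ => ∞) o

theorem pvm_sel_meas {A : ℕ → Set Ω} {Y : ℕ → Ω → ℝ≥0∞} (hA : ∀ j, MeasurableSet (A j)) (hY : ∀ j, Measurable (Y j)) :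
    Measurable (pvmSel A Y) := by
  have h1 : Measurable fun o => ∑' j, (disjointed A j).indicator (Y j) o :=
    Measurable.tsum fun j => (hY j).indicator (MeasurableSet.disjointed hA j)
  have h2 : Measurable ((⋃ j, A j)ᶜ.indicator fun _ : Ω => (∞ : ℝ≥0∞)) := measurable_const.indicator (MeasurableSet.iUnion hA).compl
  exact h1.add h2

theorem pvm_sel_eq {A : ℕ → Set Ω} (Y : ℕ → Ω → ℝ≥0∞) {o : Ω} {j : ℕ} (h : o ∈ disjointed A j) : pvmSel A Y o = Y j o := by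
  unfold pvmSel
  have h1 : o ∈ ⋃ j, A j := mem_iUnion.2 ⟨j, disjointed_subset A j h⟩
  have h3 : o ∉ (⋃ j, A j)ᶜ := fun h2 => h2 h1
  rw [indicator_of_notMem h3, add_zero, tsum_eq_single j, indicator_of_mem h]
  intro i hi
  exact indicator_of_notMem (fun h2 => (Set.disjoint_left.1 (disjoint_disjointed A hi) h2) h) _

theorem pvm_sel_top {A : ℕ → Set Ω} (Y : ℕ → Ω → ℝ≥0∞) {o : Ω} (h : o ∉ ⋃ j, A j) : pvmSel A Y o = ∞ := by
  unfold pvmSel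
  rw [indicator_of_mem (show o ∈ (⋃ j, A j)ᶜ from h), add_top]

theorem pvm_sel_cases (A : ℕ → Set Ω) (o : Ω) : (∃ j, o ∈ disjointed A j) ∨ o ∉ ⋃ j, A j := by
  by_cases h : o ∈ ⋃ j, A j
  · rw [← iUnion_disjointed] at h
    exact Or.inl (mem_iUnion.1 h)
  · exact Or.inr h

theorem pvm_sel_ge {A : ℕ → Set Ω} {Y : ℕ → Ω → ℝ≥0∞} {x : ℝ≥0∞} {o : Ω} (h : ∀ j, o ∈ A j → x ≤ Y j o) : x ≤ pvmSel A Y o := by
  rcases pvm_sel_cases A o with ⟨j, hj⟩ | h0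
  · rw [pvm_sel_eq Y hj]; exact h j (disjointed_subset A j hj)
  · rw [pvm_sel_top Y h0]; exact le_top

theorem pvm_sel_pow (A : ℕ → Set Ω) (Y : ℕ → Ω → ℝ≥0∞) (p : ℕ) (o : Ω) : pvmSel A Y o ^ p ≤ pvmSel A (fun j o => Y j o ^ p) o := by
  rcases pvm_sel_cases A o with ⟨j, hj⟩ | h0
  · rw [pvm_sel_eq Y hj, pvm_sel_eq _ hj]
  · rw [pvm_sel_top (fun j o => Y j o ^ p) h0]; exact le_top

theorem pvm_sel_lint {A : ℕ → Set Ω} {Y : ℕ → Ω → ℝ≥0∞} (μ : Measure Ω) (hA : ∀ j, MeasurableSet (A j)) (hY : ∀ j, Measurable (Y j))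
    (hnull : μ (⋃ j, A j)ᶜ = 0) : ∫⁻ o, pvmSel A Y o ∂μ = ∑' j, ∫⁻ o in disjointed A j, Y j o ∂μ := by
  unfold pvmSel
  have h1 : Measurable fun o => ∑' j, (disjointed A j).indicator (Y j) o :=
    Measurable.tsum fun j => (hY j).indicator (MeasurableSet.disjointed hA j)
  rw [lintegral_add_left h1, lintegral_indicator (MeasurableSet.iUnion hA).compl, setLIntegral_const, hnull, mul_zero, add_zero,
    lintegral_tsum fun j => ((hY j).indicator (MeasurableSet.disjointed hA j)).aemeasurable]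
  exact tsum_congr fun j => lintegral_indicator (MeasurableSet.disjointed hA j) _

/-- Cauchy-Schwarz without roots -/
theorem pvm_setLint_le (μ : Measure Ω) (D : Set Ω) {f : Ω → ℝ≥0∞} (hf : Measurable f) (l : ℝ≥0∞) (h0 : l ≠ 0) (ht : l ≠ ∞) :
    ∫⁻ o in D, f o ∂μ ≤ l * μ D + (∫⁻ o, f o ^ 2 ∂μ) * l⁻¹ := by
  calc ∫⁻ o in D, f o ∂μ ≤ ∫⁻ o in D, (l + f o ^ 2 * l⁻¹) ∂μ := lintegral_mono fun o => pvm_le_add_sq_div _ _ h0 ht
    _ = l * μ D + ∫⁻ o in D, f o ^ 2 * l⁻¹ ∂μ := by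
        rw [lintegral_add_left measurable_const, setLIntegral_const]
    _ ≤ l * μ D + ∫⁻ o, f o ^ 2 * l⁻¹ ∂μ := by gcongr; exact Measure.restrict_le_self
    _ = _ := by rw [lintegral_mul_const _ (hf.pow_const 2)]

theorem pvm_disjointed_succ_sub (A : ℕ → Set Ω) (j : ℕ) : disjointed A (j + 1) ⊆ (A j)ᶜ := by
  intro o ho
  rw [disjointed_eq_inter_compl] at ho
  exact mem_iInter₂.1 ho.2 j (Nat.lt_succ_self j)

end sel

/-! ## 2. the universal tile majorant -/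

/-- the good mesh event of scale `(j + 1) ε` around `w` -/
noncomputable def pvmA (c0 ε : ℝ) (w : ℂ) (j : ℕ) : Set (Conf PvPt) := pvmGood univ (((j : ℝ) + 1) * ε) w (c0 * ((j : ℝ) + 1) * ε)

/-- the bound available on `pvmA c0 ε w j` -/
noncomputable def pvmY (k d : ℕ) (c0 ε : ℝ) (w : ℂ) (j : ℕ) (η : Conf PvPt) : ℝ≥0∞ :=
  ENNReal.ofReal ((c0 * ((j : ℝ) + 1) * ε) ^ k) * (pvmN (pvmSqP w (c0 * ((j : ℝ) + 1) * ε)) η) ^ d

/-- **the universal tile majorant**: dominates every quantity which on the good event of scale `(j+1) ε` is at most `(c0 (j+1) ε)^k N(box)^d` -/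
noncomputable def pvmZ (k d : ℕ) (c0 ε : ℝ) (w : ℂ) : Conf PvPt → ℝ≥0∞ := pvmSel (pvmA c0 ε w) (pvmY k d c0 ε w)

theorem pvm_A_meas (c0 ε : ℝ) (w : ℂ) (j : ℕ) : MeasurableSet (pvmA c0 ε w j) := pvm_good_meas _ _ _ _

theorem pvm_Y_meas (k d : ℕ) (c0 ε : ℝ) (w : ℂ) (j : ℕ) : Measurable (pvmY k d c0 ε w j) :=
  ((pvm_SqP_cnt_meas w _).pow_const d).const_mul _

theorem pvm_Z_meas (k d : ℕ) (c0 ε : ℝ) (w : ℂ) : Measurable (pvmZ k d c0 ε w) :=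
  pvm_sel_meas (pvm_A_meas c0 ε w) (pvm_Y_meas k d c0 ε w)

/-- how to use the majorant -/
theorem pvm_Z_ge {k d : ℕ} {c0 ε : ℝ} {w : ℂ} {x : ℝ≥0∞} {η : Conf PvPt}
    (h : ∀ j : ℕ, η ∈ pvmGood univ (((j : ℝ) + 1) * ε) w (c0 * ((j : ℝ) + 1) * ε) →
      x ≤ ENNReal.ofReal ((c0 * ((j : ℝ) + 1) * ε) ^ k) * (pvmN (pvmSqP w (c0 * ((j : ℝ) + 1) * ε)) η) ^ d) : x ≤ pvmZ k d c0 ε w η :=
  pvm_sel_ge h

/-- the ratio of the geometric decay -/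
noncomputable def pvmr : ℝ := Real.exp (-(1 / 16))

theorem pvm_r_pos : 0 < pvmr := Real.exp_pos _

theorem pvm_r_lt : pvmr < 1 := by
  unfold pvmr; rw [Real.exp_lt_one_iff]; norm_num

theorem pvm_r_pow (n : ℕ) : pvmr ^ n = Real.exp (-((n : ℝ) / 16)) := by
  unfold pvmr
  rw [← Real.exp_nat_mul]; congr 1; ring

theorem pvm_A_prob {c0 ε : ℝ} (hc0 : 0 ≤ c0) (hε : 0 < ε) {μ : Measure (Conf PvPt)} (h : IsPpp (pvInt ε) μ) (w : ℂ) (j : ℕ) :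
    μ (pvmA c0 ε w j)ᶜ ≤ ENNReal.ofReal ((4 * c0 + 5) ^ 2 * pvmr ^ (2 * (j + 1))) := by
  have hj : (0 : ℝ) < (j : ℝ) + 1 := by positivity
  refine (pvm_good_prob (mul_pos hj hε) (by positivity) h univ_nonempty w).trans (ENNReal.ofReal_le_ofReal ?_)
  have e1 : 4 * (c0 * ((j : ℝ) + 1) * ε) / (((j : ℝ) + 1) * ε) = 4 * c0 := by field_simp
  have e2 : (((j : ℝ) + 1) * ε) ^ 2 / (8 * ε ^ 2) = ((j : ℝ) + 1) ^ 2 / 8 := by field_simp
  rw [e1, e2, pvm_r_pow]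
  refine mul_le_mul_of_nonneg_left (Real.exp_le_exp.2 ?_) (by positivity)
  push_cast
  nlinarith

theorem pvm_D_prob {c0 ε : ℝ} (hc0 : 0 ≤ c0) (hε : 0 < ε) {μ : Measure (Conf PvPt)} (h : IsPpp (pvInt ε) μ) (w : ℂ) (j : ℕ) :
    μ (disjointed (pvmA c0 ε w) j) ≤ ENNReal.ofReal ((4 * c0 + 5) ^ 2 * pvmr ^ (2 * j)) := by
  have := h.prob
  cases j with
  | zero =>
    refine prob_le_one.trans ?_
    rw [← ENNReal.ofReal_one]
    apply ENNReal.ofReal_le_ofReal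
    simp only [mul_zero, pow_zero, mul_one]
    nlinarith
  | succ j => exact (measure_mono (pvm_disjointed_succ_sub _ j)).trans (pvm_A_prob hc0 hε h w j)

theorem pvm_A_null {c0 ε : ℝ} (hc0 : 0 ≤ c0) (hε : 0 < ε) {μ : Measure (Conf PvPt)} (h : IsPpp (pvInt ε) μ) (w : ℂ) :
    μ (⋃ j, pvmA c0 ε w j)ᶜ = 0 := by
  have h1 : ∀ j : ℕ, μ (⋃ j, pvmA c0 ε w j)ᶜ ≤ ENNReal.ofReal ((4 * c0 + 5) ^ 2 * pvmr ^ (2 * (j + 1))) := fun j =>
    (measure_mono (compl_subset_compl.2 (subset_iUnion _ j))).trans (pvm_A_prob hc0 hε h w j)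
  have h2 : Tendsto (fun j : ℕ => (4 * c0 + 5) ^ 2 * pvmr ^ (2 * (j + 1))) atTop (𝓝 0) := by
    have h3 : Tendsto (fun n : ℕ => pvmr ^ n) atTop (𝓝 0) := tendsto_pow_atTop_nhds_zero_of_lt_one pvm_r_pos.le pvm_r_lt
    have h4 : Tendsto (fun j : ℕ => 2 * (j + 1)) atTop atTop :=
      tendsto_atTop_mono (fun j => by simp only [id]; omega) tendsto_id
    have := (h3.comp h4).const_mul ((4 * c0 + 5) ^ 2)
    rwa [mul_zero] at this
  have h5 := (ENNReal.continuous_ofReal.tendsto 0).comp h2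
  rw [ENNReal.ofReal_zero] at h5
  exact le_antisymm (ge_of_tendsto' h5 h1) zero_le

/-- the summand of the constant -/
noncomputable def pvmg (p k d : ℕ) (c0 : ℝ) (j : ℕ) : ℝ :=
  (c0 * ((j : ℝ) + 1)) ^ (k * p) * ((4 * c0 + 5) ^ 2 + 3 * ((d * p * 2).factorial * (2 * (2 * (c0 * ((j : ℝ) + 1))) ^ 2) ^ (d * p * 2))) * pvmr ^ j

theorem pvm_g_nonneg (p k d : ℕ) {c0 : ℝ} (hc0 : 0 ≤ c0) (j : ℕ) : 0 ≤ pvmg p k d c0 j := by
  unfold pvmg
  have := pvm_r_pos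
  positivity

theorem pvm_geo_summable (m : ℕ) : Summable fun j : ℕ => ((j : ℝ) + 1) ^ m * pvmr ^ j := by
  have h1 : Summable fun n : ℕ => ((n : ℝ)) ^ m * pvmr ^ n :=
    summable_pow_mul_geometric_of_norm_lt_one m (by rw [Real.norm_of_nonneg pvm_r_pos.le]; exact pvm_r_lt)
  have h2 := ((summable_nat_add_iff 1).2 h1).mul_left pvmr⁻¹
  refine h2.congr fun j => ?_
  have := pvm_r_pos.ne'
  push_cast
  rw [pow_succ]; field_simp

theorem pvm_g_summable (p k d : ℕ) (c0 : ℝ) : Summable (pvmg p k d c0) := by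
  have h1 := (pvm_geo_summable (k * p)).mul_left (c0 ^ (k * p) * (4 * c0 + 5) ^ 2)
  have h2 := (pvm_geo_summable (k * p + 2 * (d * p * 2))).mul_left
    (c0 ^ (k * p) * (3 * ((d * p * 2).factorial * (2 * (2 * c0) ^ 2) ^ (d * p * 2))))
  refine (h1.add h2).congr fun j => ?_
  unfold pvmg
  have e : (2 * (2 * (c0 * ((j : ℝ) + 1))) ^ 2) ^ (d * p * 2) = (2 * (2 * c0) ^ 2) ^ (d * p * 2) * ((j : ℝ) + 1) ^ (2 * (d * p * 2)) := by
    rw [pow_mul ((j : ℝ) + 1) 2, ← mul_pow]; congr 1; ring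
  rw [e, mul_pow c0, pow_add]
  ring

/-- one scale -/
theorem pvm_Y_lint (p k d : ℕ) {c0 ε : ℝ} (hc0 : 1 ≤ c0) (hε : 0 < ε) {μ : Measure (Conf PvPt)} (h : IsPpp (pvInt ε) μ) (w : ℂ) (j : ℕ) :
    ∫⁻ η in disjointed (pvmA c0 ε w) j, pvmY k d c0 ε w j η ^ p ∂μ ≤ ENNReal.ofReal (ε ^ (k * p) * pvmg p k d c0 j) := by
  have hc00 : 0 ≤ c0 := by linarith
  have hj : (0 : ℝ) < (j : ℝ) + 1 := by positivity
  have hr := pvm_r_pos
  set L : ℝ := c0 * ((j : ℝ) + 1) * ε with hL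
  have hL0 : 0 ≤ L := by positivity
  set a : ℝ := (2 * (c0 * ((j : ℝ) + 1))) ^ 2 with ha
  have ha1 : 1 ≤ a := by
    have : 1 ≤ c0 * ((j : ℝ) + 1) := by nlinarith [Nat.cast_nonneg (α := ℝ) j]
    rw [ha]; nlinarith
  have haL : (2 * L / ε) ^ 2 ≤ a := by
    rw [ha, hL]; apply le_of_eq; congr 1; field_simp
  have hN : Measurable (pvmN (pvmSqP w L)) := pvm_SqP_cnt_meas w L
  have hmom := pvm_SqP_mom h w hL0 ha1 haL (d * p * 2)
  have e1 : ∀ η, pvmY k d c0 ε w j η ^ p = ENNReal.ofReal (L ^ (k * p)) * (pvmN (pvmSqP w L) η) ^ (d * p) := by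
    intro η
    unfold pvmY
    rw [mul_pow, ← ENNReal.ofReal_pow (by positivity), ← pow_mul, ← pow_mul]
  simp only [e1]
  rw [lintegral_const_mul _ (hN.pow_const _)]
  have hl0 : ENNReal.ofReal ((pvmr ^ j)⁻¹) ≠ 0 := by
    rw [Ne, ENNReal.ofReal_eq_zero, not_le]; positivity
  have h2 := pvm_setLint_le μ (disjointed (pvmA c0 ε w) j) (hN.pow_const (d * p)) (ENNReal.ofReal ((pvmr ^ j)⁻¹)) hl0 ENNReal.ofReal_ne_top
  have e2 : ∀ η, ((pvmN (pvmSqP w L) η) ^ (d * p)) ^ 2 = (pvmN (pvmSqP w L) η) ^ (d * p * 2) := fun η => (pow_mul _ _ _).symm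
  simp only [e2] at h2
  have e3 : (ENNReal.ofReal ((pvmr ^ j)⁻¹))⁻¹ = ENNReal.ofReal (pvmr ^ j) := by
    rw [ENNReal.ofReal_inv_of_pos (by positivity), inv_inv]
  rw [e3] at h2
  have h3 : ∫⁻ η in disjointed (pvmA c0 ε w) j, (pvmN (pvmSqP w L) η) ^ (d * p) ∂μ
      ≤ ENNReal.ofReal (((4 * c0 + 5) ^ 2 + 3 * ((d * p * 2).factorial * (2 * a) ^ (d * p * 2))) * pvmr ^ j) := by
    refine h2.trans ?_
    calc ENNReal.ofReal ((pvmr ^ j)⁻¹) * μ (disjointed (pvmA c0 ε w) j) + (∫⁻ η, (pvmN (pvmSqP w L) η) ^ (d * p * 2) ∂μ) * ENNReal.ofReal (pvmr ^ j)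
        ≤ ENNReal.ofReal ((pvmr ^ j)⁻¹) * ENNReal.ofReal ((4 * c0 + 5) ^ 2 * pvmr ^ (2 * j))
          + ENNReal.ofReal (3 * ((d * p * 2).factorial * (2 * a) ^ (d * p * 2))) * ENNReal.ofReal (pvmr ^ j) := by
          gcongr
          exact pvm_D_prob hc00 hε h w j
      _ = _ := by
          rw [← ENNReal.ofReal_mul (by positivity), ← ENNReal.ofReal_mul (by positivity), ← ENNReal.ofReal_add (by positivity) (by positivity)]
          congr 1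
          rw [two_mul, pow_add]
          field_simp
  refine (mul_le_mul_right h3 _).trans (le_of_eq ?_)
  rw [← ENNReal.ofReal_mul (by positivity)]
  congr 1
  unfold pvmg
  rw [hL, mul_pow (c0 * ((j : ℝ) + 1)) ε]
  ring

/-- **Lemma 2.3 (ii)-(iii), the unit square estimate in scale free form**: all moments of the tile majorant, `E Z^p ≤ K ε^{kp}` -/
theorem pvm_Z_mom (p k d : ℕ) {c0 : ℝ} (hc0 : 1 ≤ c0) : ∃ K : ℝ, 0 ≤ K ∧ ∀ (ε : ℝ), 0 < ε → ∀ (μ : Measure (Conf PvPt)), IsPpp (pvInt ε) μ →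
    ∀ w : ℂ, ∫⁻ η, pvmZ k d c0 ε w η ^ p ∂μ ≤ ENNReal.ofReal (K * ε ^ (k * p)) := by
  have hc00 : 0 ≤ c0 := by linarith
  refine ⟨∑' j, pvmg p k d c0 j, tsum_nonneg (pvm_g_nonneg p k d hc00), fun ε hε μ h w => ?_⟩
  calc ∫⁻ η, pvmZ k d c0 ε w η ^ p ∂μ ≤ ∫⁻ η, pvmSel (pvmA c0 ε w) (fun j η => pvmY k d c0 ε w j η ^ p) η ∂μ :=
        lintegral_mono fun η => pvm_sel_pow _ _ p η
    _ = ∑' j, ∫⁻ η in disjointed (pvmA c0 ε w) j, pvmY k d c0 ε w j η ^ p ∂μ :=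
        pvm_sel_lint μ (pvm_A_meas c0 ε w) (fun j => (pvm_Y_meas k d c0 ε w j).pow_const p) (pvm_A_null hc00 hε h w)
    _ ≤ ∑' j, ENNReal.ofReal (ε ^ (k * p) * pvmg p k d c0 j) := ENNReal.tsum_le_tsum fun j => pvm_Y_lint p k d hc0 hε h w j
    _ = ENNReal.ofReal (∑' j, ε ^ (k * p) * pvmg p k d c0 j) :=
        (ENNReal.ofReal_tsum_of_nonneg (fun j => mul_nonneg (by positivity) (pvm_g_nonneg p k d hc00 j)) ((pvm_g_summable p k d c0).mul_left _)).symm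
    _ = _ := by rw [tsum_mul_left, mul_comm]

/-! ## 3. sums over tiles -/

/-- triangle inequality in `L^p` without roots: `E (∑ Z_i)^p ≤ n^p K` -/
theorem pvm_sum_mom {Ω : Type*} [MeasurableSpace Ω] (μ : Measure Ω) {ι : Type*} (s : Finset ι) (Z : ι → Ω → ℝ≥0∞)
    (hZ : ∀ i ∈ s, Measurable (Z i)) {p : ℕ} (hp : p ≠ 0) (K : ℝ≥0∞) (h : ∀ i ∈ s, ∫⁻ o, Z i o ^ p ∂μ ≤ K) :
    ∫⁻ o, (∑ i ∈ s, Z i o) ^ p ∂μ ≤ (s.card : ℝ≥0∞) ^ p * K := by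
  obtain ⟨q, rfl⟩ := Nat.exists_eq_succ_of_ne_zero hp
  calc ∫⁻ o, (∑ i ∈ s, Z i o) ^ (q + 1) ∂μ ≤ ∫⁻ o, (s.card : ℝ≥0∞) ^ q * ∑ i ∈ s, Z i o ^ (q + 1) ∂μ :=
        lintegral_mono fun o => pvm_pow_sum_le s (fun i => Z i o) q
    _ = (s.card : ℝ≥0∞) ^ q * ∑ i ∈ s, ∫⁻ o, Z i o ^ (q + 1) ∂μ := by
        rw [lintegral_const_mul _ (Finset.measurable_fun_sum s fun i hi => (hZ i hi).pow_const _),
          lintegral_finsetSum s fun i hi => (hZ i hi).pow_const _]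
    _ ≤ (s.card : ℝ≥0∞) ^ q * ∑ _i ∈ s, K := by gcongr with i hi; exact h i hi
    _ = _ := by rw [Finset.sum_const, nsmul_eq_mul, pow_succ, mul_assoc]

/-- a finite family each member of which is attached to some tile -/
theorem pvm_sum_le_tiles {τ ι : Type*} (F : Finset τ) (wt : τ → ℝ≥0∞) (I : Finset ι) (R : τ → ι → Prop) (hcov : ∀ t ∈ F, ∃ i ∈ I, R t i)
    (Z : ι → ℝ≥0∞) (hZ : ∀ i ∈ I, ∀ G : Finset τ, G ⊆ F → (∀ t ∈ G, R t i) → ∑ t ∈ G, wt t ≤ Z i) : ∑ t ∈ F, wt t ≤ ∑ i ∈ I, Z i := by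
  classical
  calc ∑ t ∈ F, wt t ≤ ∑ t ∈ F, ∑ i ∈ I, if R t i then wt t else 0 := by
        refine Finset.sum_le_sum fun t ht => ?_
        obtain ⟨i, hi, hR⟩ := hcov t ht
        calc wt t = if R t i then wt t else 0 := by rw [if_pos hR]
          _ ≤ _ := Finset.single_le_sum (f := fun i => if R t i then wt t else 0) (fun _ _ => zero_le) hi
    _ = ∑ i ∈ I, ∑ t ∈ F, if R t i then wt t else 0 := Finset.sum_comm
    _ = ∑ i ∈ I, ∑ t ∈ F.filter (fun t => R t i), wt t := by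
        refine Finset.sum_congr rfl fun i _ => ?_
        rw [Finset.sum_filter]
    _ ≤ ∑ i ∈ I, Z i := Finset.sum_le_sum fun i hi =>
        hZ i hi _ (Finset.filter_subset _ _) fun t ht => (Finset.mem_filter.1 ht).2

/-- centre of the tile of index `i` (mesh `ε`, origin `w`) -/
def pvmTc (ε : ℝ) (w : ℂ) (i : ℤ × ℤ) : ℂ := w + ⟨ε * (i.1 : ℝ), ε * (i.2 : ℝ)⟩

theorem pvm_tile_cover {ε s : ℝ} (hε : 0 < ε) {w x : ℂ} (hx : x ∈ pvmSq w s) :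
    ∃ i ∈ pvmIdx 0 (⌈s / ε⌉₊ + 1), x ∈ pvmSq (pvmTc ε w i) (ε / 2) := by
  have key : ∀ u : ℝ, |u| ≤ s → |round (u / ε) - (0 : ℤ)| ≤ ((⌈s / ε⌉₊ + 1 : ℕ) : ℤ) ∧ |u - ε * (round (u / ε) : ℝ)| ≤ ε / 2 := by
    intro u hu
    have h1 := abs_sub_round (u / ε)
    have h2 : |u / ε| ≤ s / ε := by rw [abs_div, abs_of_pos hε]; exact div_le_div_of_nonneg_right hu hε.le
    have h3 := Nat.le_ceil (s / ε)
    constructor
    · rw [sub_zero]
      have h4 : |((round (u / ε) : ℤ) : ℝ)| ≤ ((⌈s / ε⌉₊ + 1 : ℕ) : ℝ) := by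
        have : |((round (u / ε) : ℤ) : ℝ)| ≤ |u / ε| + |u / ε - round (u / ε)| := by
          have := abs_sub_abs_le_abs_sub ((round (u / ε) : ℤ) : ℝ) (u / ε)
          rw [abs_sub_comm] at this
          linarith
        push_cast
        linarith
      exact_mod_cast h4
    · have e : u - ε * (round (u / ε) : ℝ) = ε * (u / ε - round (u / ε)) := by field_simp
      rw [e, abs_mul, abs_of_pos hε]
      nlinarith
  obtain ⟨a1, a2⟩ := key _ hx.1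
  obtain ⟨b1, b2⟩ := key _ hx.2
  refine ⟨(round ((x.re - w.re) / ε), round ((x.im - w.im) / ε)), pvm_mem_Idx.2 ⟨a1, b1⟩, ?_, ?_⟩
  · simp only [pvmTc, Complex.add_re]
    rw [← sub_sub]; exact a2
  · simp only [pvmTc, Complex.add_im]
    rw [← sub_sub]; exact b2

/-- **the majorant of a square** of centre `w` and half side `s` -/
noncomputable def pvmZS (k d : ℕ) (c0 ε : ℝ) (w : ℂ) (s : ℝ) (η : Conf PvPt) : ℝ≥0∞ :=
  ∑ i ∈ pvmIdx 0 (⌈s / ε⌉₊ + 1), pvmZ k d c0 ε (pvmTc ε w i) η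

theorem pvm_ZS_meas (k d : ℕ) (c0 ε : ℝ) (w : ℂ) (s : ℝ) : Measurable (pvmZS k d c0 ε w s) :=
  Finset.measurable_fun_sum _ fun _ _ => pvm_Z_meas k d c0 ε _

/-- **(prob:mesh-moments)** for the majorant: `‖Z_S‖_p ≤ C ε^{k-2} (s + ε)²` -/
theorem pvm_ZS_mom {p : ℕ} (hp : p ≠ 0) (k d : ℕ) {c0 : ℝ} (hc0 : 1 ≤ c0) : ∃ K : ℝ, 0 ≤ K ∧ ∀ (ε : ℝ), 0 < ε → ∀ (μ : Measure (Conf PvPt)),
    IsPpp (pvInt ε) μ → ∀ (w : ℂ) (s : ℝ), 0 ≤ s → ∫⁻ η, pvmZS k d c0 ε w s η ^ p ∂μ ≤ ENNReal.ofReal (K * (ε ^ k * ((s + ε) / ε) ^ 2) ^ p) := by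
  obtain ⟨K, hK, h⟩ := pvm_Z_mom p k d hc0
  refine ⟨25 ^ p * K, by positivity, fun ε hε μ hμ w s hs => ?_⟩
  have h1 := pvm_sum_mom μ (pvmIdx 0 (⌈s / ε⌉₊ + 1)) (fun i => pvmZ k d c0 ε (pvmTc ε w i)) (fun i _ => pvm_Z_meas k d c0 ε _) hp
    (ENNReal.ofReal (K * ε ^ (k * p))) (fun i _ => h ε hε μ hμ _)
  refine h1.trans ?_
  rw [pvm_Idx_card, ← ENNReal.ofReal_natCast, ← ENNReal.ofReal_pow (by positivity), ← ENNReal.ofReal_mul (by positivity)]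
  apply ENNReal.ofReal_le_ofReal
  have h2 := pvm_ceil_le (x := s / ε) (by positivity)
  have h3 : (((2 * (⌈s / ε⌉₊ + 1) + 1) ^ 2 : ℕ) : ℝ) ≤ 25 * ((s + ε) / ε) ^ 2 := by
    have e : (s + ε) / ε = s / ε + 1 := by field_simp
    have h0 : 0 ≤ s / ε := by positivity
    rw [e]; push_cast
    nlinarith
  calc (((2 * (⌈s / ε⌉₊ + 1) + 1) ^ 2 : ℕ) : ℝ) ^ p * (K * ε ^ (k * p)) ≤ (25 * ((s + ε) / ε) ^ 2) ^ p * (K * ε ^ (k * p)) := by
        gcongr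
    _ = _ := by rw [mul_pow, mul_pow, pow_mul]; ring

theorem pvm_mom_eqns_cite : True := by
  have := @pvmSel.eq_1.{0}
  have := @pvmA.eq_1
  have := @pvmY.eq_1
  have := @pvmZ.eq_1
  have := @pvmr.eq_1
  have := @pvmg.eq_1
  have := @pvmTc.eq_1
  have := @pvmZS.eq_1
  trivial

end Claimed.Agent.R289
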