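import Claimed.Agent.R289.Del.Apex
import Claimed.Agent.R289.Del.Area
import Claimed.Agent.R289.Mesh.Mom

/-!
# Row 289 (S0537), box MESH, file Mesh/Tri : DELAUNAY TRIANGLES THAT TOUCH A SQUARE, ON THE GOOD MESH EVENT      (helper223; head helper127; prefix `pvmt_`, `PvmtHit`)

TEX[lemma:mesh] (ii), (iii), deterministic half (A, helper223) + MOMENTS (B, helper127).   0 sorry.
PART B: `pvmtD t` (longest side), `pvmt_sum_tile`, **`pvmt_sum_sq`** / `pvmt_tsum_sq` (`∑ diam^k` over ANY finite family / the series of the triangles attached to `pvmSq w s` is `≤ pvmZS k 3 3 ε w s η`, a MEASURABLE function),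
**`pvmt_mom`** = (prob:mesh-moments), `pvmt_var` = the form of (8.4) (`E Z² ≤ C r⁴`, `ε ≤ r`), `pvmt_at_of_delT`, `pvmt_small`, `pvmt_ball_sub`.
EXPORTS (asked by 127): `PvmtAt Y S t`, `pvmt_tile`, `pvmt_card`, `pvmt_tile_card`;   also `pvmt_dense_of_net`, `pvmt_lf_ae` (a.s. `VorLF`), `pvmt_good_dense`, `pvmt_empty_disc`, `PvmtHit` (untupled form), `pvmt_hit_of_meet`, `PvmtHit.radius`,
`pvmt_good_radius / _vertices / _side / _centre / _card` (on `pvmGood univ ρ w (s + 2ρ)`);   `pvmt_loc` (LOC), `pvmt_hit_finite`, `pvmt_tail`.   Vocabulary: `Vor/Basic` (`VorDense`, `VorLF`, `vorNbd`, `cfSites`), `Del/Apex` (`DelTri`, `delO`), `Mesh/Net` (`pvmGood`, `PvNet`, `pvmSq`), `Mesh/Cnt` (`pvmN`, `pvmSqP`).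
-/

set_option autoImplicit false

namespace Claimed.Agent.R289

open MeasureTheory Set Metric
open scoped ENNReal NNReal

/-! ## A.1 nets, density, local finiteness -/

theorem pvmt_dense_of_net {ρ : ℝ} {K : Set ℂ} {η : Conf PvPt} (h : PvNet ρ K η) : VorDense (cfSites η) K ρ := by
  intro z hz
  obtain ⟨p, hp, h2⟩ := h z hz
  exact ⟨p.1, ⟨p, hp, rfl⟩, by rw [norm_sub_rev]; exact h2.le⟩

theorem pvmt_abs_re_le (z : ℂ) : |z.re| ≤ ‖z‖ := Complex.abs_re_le_norm z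

theorem pvmt_abs_im_le (z : ℂ) : |z.im| ≤ ‖z‖ := Complex.abs_im_le_norm z

/-- a point at distance `≤ σ` of the square of half side `L` lies in the square of half side `L + σ` -/
theorem pvmt_Sq_add {w x y : ℂ} {L σ : ℝ} (hx : x ∈ pvmSq w L) (h : ‖y - x‖ ≤ σ) : y ∈ pvmSq w (L + σ) := by
  have h1 := (pvmt_abs_re_le (y - x)).trans h
  have h2 := (pvmt_abs_im_le (y - x)).trans h
  rw [Complex.sub_re] at h1
  rw [Complex.sub_im] at h2
  refine ⟨?_, ?_⟩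
  · have e : y.re - w.re = (y.re - x.re) + (x.re - w.re) := by ring
    rw [e]; exact (abs_add_le _ _).trans (by linarith [hx.1])
  · have e : y.im - w.im = (y.im - x.im) + (x.im - w.im) := by ring
    rw [e]; exact (abs_add_le _ _).trans (by linarith [hx.2])

theorem pvmt_nbd_Sq (w : ℂ) (L σ : ℝ) : vorNbd (pvmSq w L) σ ⊆ pvmSq w (L + σ) := by
  rintro y ⟨x, hx, h⟩
  exact pvmt_Sq_add hx h

theorem pvmt_ball_sub_Sq (R : ℝ) : closedBall (0 : ℂ) R ⊆ pvmSq 0 R := by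
  intro z hz
  rw [mem_closedBall, dist_zero_right] at hz
  exact ⟨by simpa using (pvmt_abs_re_le z).trans hz, by simpa using (pvmt_abs_im_le z).trans hz⟩

theorem pvmt_lf_of_fin {η : Conf PvPt} (h : ∀ (w : ℂ) (L : ℝ), (η.pts ∩ pvmSqP w L).Finite) : VorLF (cfSites η) := by
  intro R
  refine ((h 0 R).image Prod.fst).subset ?_
  rintro z ⟨⟨p, hp, rfl⟩, hz⟩
  exact ⟨p, ⟨hp, pvmt_ball_sub_Sq R hz, mem_univ _⟩, rfl⟩

/-- **a.s. local finiteness of the sites** -/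
theorem pvmt_lf_ae {ε : ℝ} {μ : Measure (Conf PvPt)} (h : IsPpp (pvInt ε) μ) : ∀ᵐ η ∂μ, VorLF (cfSites η) := by
  filter_upwards [pvm_locfin_ae h] with η hη using pvmt_lf_of_fin hη

/-- the good mesh event gives density on the square -/
theorem pvmt_good_dense {c : Set Bool} {ρ L : ℝ} (hρ : 0 < ρ) {w : ℂ} {η : Conf PvPt} (h : η ∈ pvmGood c ρ w L) :
    VorDense (cfSites η) (pvmSq w L) ρ := pvmt_dense_of_net (pvm_net_of_netC (pvm_good_net hρ h))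

/-! ## A.2 the empty disc lemma -/

/-- **EMPTY DISC** (same statement as `delp_empty_disc` of helper219, `Del/Plane`; kept here so that MESH only imports `Del/Apex`): `z ∈ vorCell Y a` (the open disc of radius `‖z - a‖` round `z` contains no site),
its closed disc contains `w ∈ K`, `Y` is `ρ`-dense on the `σ`-collar of `K`, `ρ < σ`.   Then the radius is `< σ`. -/
theorem pvmt_empty_disc {Y K : Set ℂ} {ρ σ : ℝ} (hρ : 0 ≤ ρ) (hρσ : ρ < σ) (hd : VorDense Y (vorNbd K σ) ρ) {z a w : ℂ} (hz : z ∈ vorCell Y a) (hw : w ∈ K)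
    (hwz : ‖w - z‖ ≤ ‖z - a‖) : ‖z - a‖ < σ := by
  by_contra hcon
  rw [not_lt] at hcon
  set r := ‖z - a‖ with hr
  have hσ : 0 ≤ σ := hρ.trans hρσ.le
  have key : ∃ z' ∈ vorNbd K σ, ‖z - z'‖ ≤ r - σ := by
    by_cases hc : ‖w - z‖ ≤ r - σ
    · exact ⟨w, ⟨w, hw, by simpa using hσ⟩, by rw [norm_sub_rev]; exact hc⟩
    · rw [not_le] at hc
      have hL : 0 < ‖w - z‖ := lt_of_le_of_lt (by linarith) hc
      refine ⟨z + (((r - σ) / ‖w - z‖ : ℝ) : ℂ) * (w - z), ⟨w, hw, ?_⟩, ?_⟩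
      · have e : z + (((r - σ) / ‖w - z‖ : ℝ) : ℂ) * (w - z) - w = (((1 - (r - σ) / ‖w - z‖ : ℝ)) : ℂ) * (z - w) := by
          push_cast; ring
        have h1 : 0 ≤ 1 - (r - σ) / ‖w - z‖ := by
          rw [sub_nonneg, div_le_one hL]; exact hc.le
        rw [e, norm_mul, Complex.norm_real, Real.norm_of_nonneg h1, norm_sub_rev z w]
        have : (1 - (r - σ) / ‖w - z‖) * ‖w - z‖ = ‖w - z‖ - (r - σ) := by field_simp
        rw [this]; linarith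
      · have e : z - (z + (((r - σ) / ‖w - z‖ : ℝ) : ℂ) * (w - z)) = - ((((r - σ) / ‖w - z‖ : ℝ) : ℂ) * (w - z)) := by ring
        rw [e, norm_neg, norm_mul, Complex.norm_real, Real.norm_of_nonneg (div_nonneg (by linarith) hL.le)]
        have : (r - σ) / ‖w - z‖ * ‖w - z‖ = r - σ := by field_simp
        rw [this]
  obtain ⟨z', hz', hzz'⟩ := key
  obtain ⟨s, hs, hs'⟩ := hd z' hz'
  have h1 := hz s hs
  have h2 : ‖z - s‖ ≤ ‖z - z'‖ + ‖z' - s‖ := by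
    have := norm_add_le (z - z') (z' - s)
    simpa using this
  linarith

/-! ## A.3 triangles whose closed circumdisc touches a set -/

/-- `a b c` is a positively oriented Delaunay triangle of `Y` whose CLOSED CIRCUMDISC meets `S` -/
def PvmtHit (Y S : Set ℂ) (a b c : ℂ) : Prop := DelTri Y a b c ∧ ∃ x ∈ S, ‖x - delO a b c‖ ≤ ‖delO a b c - a‖

theorem PvmtHit.mono {Y S S' : Set ℂ} {a b c : ℂ} (h : PvmtHit Y S a b c) (hS : S ⊆ S') : PvmtHit Y S' a b c := by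
  obtain ⟨h1, x, hx, h2⟩ := h
  exact ⟨h1, x, hS hx, h2⟩

theorem PvmtHit.cyc {Y S : Set ℂ} {a b c : ℂ} (h : PvmtHit Y S a b c) : PvmtHit Y S b c a := by
  obtain ⟨h1, x, hx, h2⟩ := h
  refine ⟨del_tri_cyc h1, x, hx, ?_⟩
  rw [del_O_rot h1.left.ne', ← del_O_ab]; exact h2

/-- the closed triangle lies in the closed circumdisc -/
theorem pvmt_hull_sub {Y : Set ℂ} {a b c : ℂ} (h : DelTri Y a b c) : convexHull ℝ {a, b, c} ⊆ closedBall (delO a b c) ‖delO a b c - a‖ := by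
  refine convexHull_min ?_ (convex_closedBall _ _)
  rintro x (rfl | rfl | rfl)
  · rw [mem_closedBall, dist_eq_norm, norm_sub_rev]
  · rw [mem_closedBall, dist_eq_norm, norm_sub_rev, ← del_O_ab]
  · rw [mem_closedBall, dist_eq_norm, norm_sub_rev, ← del_O_ac h.left.ne']

/-- a triangle that meets `S` hits `S` -/
theorem pvmt_hit_of_meet {Y S : Set ℂ} {a b c : ℂ} (h : DelTri Y a b c) (hm : (convexHull ℝ {a, b, c} ∩ S).Nonempty) : PvmtHit Y S a b c := by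
  obtain ⟨x, hx, hS⟩ := hm
  refine ⟨h, x, hS, ?_⟩
  have := pvmt_hull_sub h hx
  rwa [mem_closedBall, dist_eq_norm] at this

/-- **RADIUS**: density `ρ` on the `σ`-collar of `S` for some `σ > ρ` forces circumradius `≤ ρ` -/
theorem PvmtHit.radius {Y S : Set ℂ} {ρ σ : ℝ} (hρ : 0 ≤ ρ) (hρσ : ρ < σ) (hd : VorDense Y (vorNbd S σ) ρ) {a b c : ℂ} (h : PvmtHit Y S a b c) :
    ‖delO a b c - a‖ ≤ ρ := by
  obtain ⟨h1, x, hx, h2⟩ := h
  refine le_of_forall_gt_imp_ge_of_dense fun τ hτ => ?_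
  have hm : ρ < min τ σ := lt_min hτ hρσ
  have hd' : VorDense Y (vorNbd S (min τ σ)) ρ := hd.mono subset_rfl (by
    rintro y ⟨z, hz, hy⟩
    exact ⟨z, hz, hy.trans (min_le_right _ _)⟩) le_rfl
  exact ((pvmt_empty_disc hρ hm hd' h1.O_mem_a hx h2).trans_le (min_le_left _ _)).le

/-- the first vertex is within twice the circumradius of `S` -/
theorem PvmtHit.vertex {Y S : Set ℂ} {a b c : ℂ} (h : PvmtHit Y S a b c) : ∃ x ∈ S, ‖a - x‖ ≤ 2 * ‖delO a b c - a‖ := by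
  obtain ⟨_, x, hx, h2⟩ := h
  refine ⟨x, hx, ?_⟩
  have e : a - x = -(delO a b c - a) - (x - delO a b c) := by ring
  rw [e]
  refine (norm_sub_le _ _).trans ?_
  rw [norm_neg]; linarith

/-- the sides are at most twice the circumradius -/
theorem pvmt_side_le {Y : Set ℂ} {a b c : ℂ} (_h : DelTri Y a b c) : ‖a - b‖ ≤ 2 * ‖delO a b c - a‖ := by
  have e : a - b = (delO a b c - b) - (delO a b c - a) := by ring
  rw [e]
  refine (norm_sub_le _ _).trans ?_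
  rw [← del_O_ab]; linarith

/-! ## A.4 on the good mesh event: radius, vertices, diameter, number of the triangles that hit a square -/

section good

variable {ρ s : ℝ} {w : ℂ} {η : Conf PvPt} {a b c : ℂ}

/-- density on the collar used below -/
theorem pvmt_good_collar (hρ : 0 < ρ) (h : η ∈ pvmGood univ ρ w (s + 2 * ρ)) : VorDense (cfSites η) (vorNbd (pvmSq w s) (2 * ρ)) ρ :=
  (pvmt_good_dense hρ h).mono subset_rfl (pvmt_nbd_Sq w s (2 * ρ)) le_rfl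

/-- **(c1)** circumradius `≤ ρ` -/
theorem pvmt_good_radius (hρ : 0 < ρ) (h : η ∈ pvmGood univ ρ w (s + 2 * ρ)) (ht : PvmtHit (cfSites η) (pvmSq w s) a b c) :
    ‖delO a b c - a‖ ≤ ρ := ht.radius hρ.le (by linarith) (pvmt_good_collar hρ h)

/-- **(c2)** the vertices lie in the square of half side `s + 2ρ` -/
theorem pvmt_good_vertex (hρ : 0 < ρ) (h : η ∈ pvmGood univ ρ w (s + 2 * ρ)) (ht : PvmtHit (cfSites η) (pvmSq w s) a b c) :
    a ∈ pvmSq w (s + 2 * ρ) := by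
  obtain ⟨x, hx, h2⟩ := ht.vertex
  exact pvmt_Sq_add hx (h2.trans (by linarith [pvmt_good_radius hρ h ht]))

theorem pvmt_good_vertices (hρ : 0 < ρ) (h : η ∈ pvmGood univ ρ w (s + 2 * ρ)) (ht : PvmtHit (cfSites η) (pvmSq w s) a b c) :
    a ∈ pvmSq w (s + 2 * ρ) ∧ b ∈ pvmSq w (s + 2 * ρ) ∧ c ∈ pvmSq w (s + 2 * ρ) :=
  ⟨pvmt_good_vertex hρ h ht, pvmt_good_vertex hρ h ht.cyc, pvmt_good_vertex hρ h ht.cyc.cyc⟩

/-- the sides are `≤ 2ρ` -/
theorem pvmt_good_side (hρ : 0 < ρ) (h : η ∈ pvmGood univ ρ w (s + 2 * ρ)) (ht : PvmtHit (cfSites η) (pvmSq w s) a b c) :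
    ‖a - b‖ ≤ 2 * ρ := (pvmt_side_le ht.1).trans (by linarith [pvmt_good_radius hρ h ht])

/-- the circumcentre lies in the square of half side `s + ρ` -/
theorem pvmt_good_centre (hρ : 0 < ρ) (h : η ∈ pvmGood univ ρ w (s + 2 * ρ)) (ht : PvmtHit (cfSites η) (pvmSq w s) a b c) :
    delO a b c ∈ pvmSq w (s + ρ) := by
  obtain ⟨x, hx, h2⟩ := ht.2
  refine pvmt_Sq_add hx ?_
  rw [norm_sub_rev]; exact h2.trans (pvmt_good_radius hρ h ht)

end good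

/-- a finite set of sites in a plane set is not larger than the number of (coloured) points over that set -/
theorem pvmt_sites_card_le {η : Conf PvPt} {A : Set ℂ} (V : Finset ℂ) (hV : ∀ v ∈ V, v ∈ cfSites η ∧ v ∈ A) :
    (V.card : ℝ≥0∞) ≤ pvmN (A ×ˢ univ) η := by
  classical
  have hch : ∀ v ∈ V, ∃ p ∈ η.pts, p.1 = v := fun v hv => by
    obtain ⟨p, hp, e⟩ := (hV v hv).1
    exact ⟨p, hp, e⟩
  choose! f hf1 hf2 using hch
  have hinj : Set.InjOn f V := fun u hu v hv e => by rw [← hf2 u hu, ← hf2 v hv, e]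
  rw [← Finset.card_image_of_injOn hinj]
  refine pvm_card_le_N _ ?_
  intro p hp
  rw [Finset.coe_image] at hp
  obtain ⟨v, hv, rfl⟩ := hp
  exact ⟨hf1 v hv, by rw [hf2 v hv]; exact (hV v hv).2, mem_univ _⟩

/-- a finite set of triples with entries in a finite set of sites -/
theorem pvmt_triples_card_le {η : Conf PvPt} {A : Set ℂ} (T : Finset (ℂ × ℂ × ℂ))
    (hT : ∀ t ∈ T, (t.1 ∈ cfSites η ∧ t.1 ∈ A) ∧ (t.2.1 ∈ cfSites η ∧ t.2.1 ∈ A) ∧ (t.2.2 ∈ cfSites η ∧ t.2.2 ∈ A)) :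
    (T.card : ℝ≥0∞) ≤ pvmN (A ×ˢ univ) η ^ 3 := by
  classical
  set V : Finset ℂ := T.image (fun t => t.1) ∪ T.image (fun t => t.2.1) ∪ T.image (fun t => t.2.2) with hVdef
  have hV : ∀ v ∈ V, v ∈ cfSites η ∧ v ∈ A := by
    intro v hv
    simp only [hVdef, Finset.mem_union, Finset.mem_image] at hv
    rcases hv with (⟨t, ht, rfl⟩ | ⟨t, ht, rfl⟩) | ⟨t, ht, rfl⟩
    · exact (hT t ht).1
    · exact (hT t ht).2.1
    · exact (hT t ht).2.2
  have hsub : T ⊆ V ×ˢ V ×ˢ V := by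
    intro t ht
    simp only [Finset.mem_product, hVdef, Finset.mem_union, Finset.mem_image]
    exact ⟨Or.inl (Or.inl ⟨t, ht, rfl⟩), Or.inl (Or.inr ⟨t, ht, rfl⟩), Or.inr ⟨t, ht, rfl⟩⟩
  have h1 : T.card ≤ V.card ^ 3 := by
    have := Finset.card_le_card hsub
    rw [Finset.card_product, Finset.card_product] at this
    calc T.card ≤ V.card * (V.card * V.card) := this
      _ = V.card ^ 3 := by ring
  calc (T.card : ℝ≥0∞) ≤ ((V.card ^ 3 : ℕ) : ℝ≥0∞) := by exact_mod_cast h1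
    _ = (V.card : ℝ≥0∞) ^ 3 := by push_cast; rfl
    _ ≤ _ := by gcongr; exact pvmt_sites_card_le V hV

/-- **(c3)** on the good mesh event, any finite set of triangles that hit the square of half side `s` has at most `N(square of half side s + 2ρ)³` elements -/
theorem pvmt_good_card {ρ s : ℝ} {w : ℂ} {η : Conf PvPt} (hρ : 0 < ρ) (h : η ∈ pvmGood univ ρ w (s + 2 * ρ)) (T : Finset (ℂ × ℂ × ℂ))
    (hT : ∀ t ∈ T, PvmtHit (cfSites η) (pvmSq w s) t.1 t.2.1 t.2.2) : (T.card : ℝ≥0∞) ≤ pvmN (pvmSqP w (s + 2 * ρ)) η ^ 3 := by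
  refine pvmt_triples_card_le T fun t ht => ?_
  obtain ⟨h1, h2, h3⟩ := pvmt_good_vertices hρ h (hT t ht)
  have hd := (hT t ht).1
  exact ⟨⟨hd.1, h1⟩, ⟨hd.2.1, h2⟩, ⟨hd.2.2.1, h3⟩⟩

/-! ## A.6 LOC, finiteness, tail -/

theorem pvmt_dense_transfer {ρ L : ℝ} {w : ℂ} {Y Y' : Set ℂ} (hd : VorDense Y (pvmSq w L) ρ) (hYY : Y ∩ pvmSq w (L + ρ) = Y' ∩ pvmSq w (L + ρ)) :
    VorDense Y' (pvmSq w L) ρ := by
  intro z hz
  obtain ⟨u, hu, h⟩ := hd z hz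
  have : u ∈ Y ∩ pvmSq w (L + ρ) := ⟨hu, pvmt_Sq_add hz (by rw [norm_sub_rev]; exact h)⟩
  rw [hYY] at this
  exact ⟨u, this.1, h⟩

theorem pvmt_loc_aux {ρ s : ℝ} {w : ℂ} {Y Y' : Set ℂ} (hρ : 0 < ρ) (hd : VorDense Y (pvmSq w (s + 2 * ρ)) ρ)
    (hYY : Y ∩ pvmSq w (s + 3 * ρ) = Y' ∩ pvmSq w (s + 3 * ρ)) {a b c : ℂ} (h : PvmtHit Y (pvmSq w s) a b c) : PvmtHit Y' (pvmSq w s) a b c := by
  have hd2 : VorDense Y (vorNbd (pvmSq w s) (2 * ρ)) ρ := hd.mono subset_rfl (pvmt_nbd_Sq w s (2 * ρ)) le_rfl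
  have hmem : ∀ {a b c : ℂ}, PvmtHit Y (pvmSq w s) a b c → a ∈ Y' := by
    intro a b c h
    have hr := h.radius hρ.le (by linarith) hd2
    obtain ⟨x, hx, h2⟩ := h.vertex
    have : a ∈ Y ∩ pvmSq w (s + 3 * ρ) := ⟨h.1.1, pvmt_Sq_add hx (h2.trans (by linarith))⟩
    rw [hYY] at this
    exact this.1
  have hr := h.radius hρ.le (by linarith) hd2
  obtain ⟨x, hx, h2⟩ := h.2
  have hO : delO a b c ∈ pvmSq w (s + ρ) := pvmt_Sq_add hx (by rw [norm_sub_rev]; exact h2.trans hr)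
  refine ⟨del_tri_iff.2 ⟨hmem h, hmem h.cyc, hmem h.cyc.cyc, h.1.left, fun u hu => ?_⟩, x, hx, h2⟩
  by_cases hu' : u ∈ pvmSq w (s + 3 * ρ)
  · have : u ∈ Y' ∩ pvmSq w (s + 3 * ρ) := ⟨hu, hu'⟩
    rw [← hYY] at this
    exact h.1.empty u this.1
  · by_contra hcon
    rw [not_le] at hcon
    refine hu' ?_
    have := pvmt_Sq_add (σ := 2 * ρ) hO (y := u) (by rw [norm_sub_rev]; linarith)
    have e : s + ρ + 2 * ρ = s + 3 * ρ := by ring
    rwa [e] at this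

/-- **LOC**: under density `ρ` on the square of half side `s + 2ρ`, the triangles that hit the square of half side `s` are read from the sites of the square of half side `s + 3ρ` -/
theorem pvmt_loc {ρ s : ℝ} {w : ℂ} {Y Y' : Set ℂ} (hρ : 0 < ρ) (hd : VorDense Y (pvmSq w (s + 2 * ρ)) ρ)
    (hYY : Y ∩ pvmSq w (s + 3 * ρ) = Y' ∩ pvmSq w (s + 3 * ρ)) (a b c : ℂ) : PvmtHit Y (pvmSq w s) a b c ↔ PvmtHit Y' (pvmSq w s) a b c := by
  refine ⟨pvmt_loc_aux hρ hd hYY, pvmt_loc_aux hρ (pvmt_dense_transfer hd ?_) hYY.symm⟩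
  have e : s + 2 * ρ + ρ = s + 3 * ρ := by ring
  rw [e]; exact hYY

theorem pvmt_Sq_sub_ball (w : ℂ) (L : ℝ) : pvmSq w L ⊆ closedBall w (2 * L) := by
  intro z hz
  rw [mem_closedBall, dist_eq_norm]
  refine (Complex.norm_le_abs_re_add_abs_im _).trans ?_
  rw [Complex.sub_re, Complex.sub_im]
  linarith [hz.1, hz.2]

theorem pvmt_Sq_finite {Y : Set ℂ} (lf : VorLF Y) (w : ℂ) (L : ℝ) : (Y ∩ pvmSq w L).Finite :=
  (lf.finite_ball w (2 * L)).subset (inter_subset_inter_right _ (pvmt_Sq_sub_ball w L))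

/-- **FINITE**: finitely many triangles hit a square -/
theorem pvmt_hit_finite {ρ s : ℝ} {w : ℂ} {Y : Set ℂ} (lf : VorLF Y) (hρ : 0 < ρ) (hd : VorDense Y (pvmSq w (s + 2 * ρ)) ρ) :
    {t : ℂ × ℂ × ℂ | PvmtHit Y (pvmSq w s) t.1 t.2.1 t.2.2}.Finite := by
  have hd2 : VorDense Y (vorNbd (pvmSq w s) (2 * ρ)) ρ := hd.mono subset_rfl (pvmt_nbd_Sq w s (2 * ρ)) le_rfl
  have hV := pvmt_Sq_finite lf w (s + 2 * ρ)
  refine (hV.prod (hV.prod hV)).subset ?_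
  have hmem : ∀ {a b c : ℂ}, PvmtHit Y (pvmSq w s) a b c → a ∈ Y ∩ pvmSq w (s + 2 * ρ) := by
    intro a b c h
    have hr := h.radius hρ.le (by linarith) hd2
    obtain ⟨x, hx, h2⟩ := h.vertex
    exact ⟨h.1.1, pvmt_Sq_add hx (h2.trans (by linarith))⟩
  intro t ht
  exact ⟨hmem ht, hmem (PvmtHit.cyc ht), hmem (PvmtHit.cyc (PvmtHit.cyc ht))⟩

/-- **TAIL** (TEX[lemma:mesh] (ii)): the probability that some triangle hitting the square of half side `s` has circumradius `> ρ` -/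
theorem pvmt_tail {ε ρ s : ℝ} (hρ : 0 < ρ) (hs : 0 ≤ s) {μ : Measure (Conf PvPt)} (h : IsPpp (pvInt ε) μ) (w : ℂ) :
    μ {η | ∃ a b c, PvmtHit (cfSites η) (pvmSq w s) a b c ∧ ρ < ‖delO a b c - a‖}
      ≤ ENNReal.ofReal ((4 * (s + 2 * ρ) / ρ + 5) ^ 2 * Real.exp (-(ρ ^ 2 / (8 * ε ^ 2)))) := by
  refine (measure_mono ?_).trans (pvm_good_prob hρ (by positivity : 0 ≤ s + 2 * ρ) h (c := univ) univ_nonempty w)
  rintro η ⟨a, b, c, ht, hr⟩ hg
  exact absurd (pvmt_good_radius hρ hg ht) (not_le.2 hr)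

/-! ## A.5 EXPORTS in the form asked by helper127 (triples, net hypothesis on a square of half side `L ≥ s + 2ρ`) -/

/-- the triple `t` is a positively oriented Delaunay triangle of `Y` whose closed circumdisc meets `S` -/
def PvmtAt (Y S : Set ℂ) (t : ℂ × ℂ × ℂ) : Prop :=
  DelTri Y t.1 t.2.1 t.2.2 ∧ ∃ x ∈ S, ‖x - delO t.1 t.2.1 t.2.2‖ ≤ ‖delO t.1 t.2.1 t.2.2 - t.1‖

theorem pvmt_at_iff (Y S : Set ℂ) (t : ℂ × ℂ × ℂ) : PvmtAt Y S t ↔ PvmtHit Y S t.1 t.2.1 t.2.2 := Iff.rfl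

/-- a closed triangle that meets `S` -/
theorem pvmt_at_of_meet {Y S : Set ℂ} {t : ℂ × ℂ × ℂ} (h : DelTri Y t.1 t.2.1 t.2.2) (hm : (convexHull ℝ {t.1, t.2.1, t.2.2} ∩ S).Nonempty) :
    PvmtAt Y S t := pvmt_hit_of_meet h hm

/-- **TILE**: under the net property at resolution `ρ` on the square of half side `L ≥ s + 2ρ`, a triangle that hits the square of half side `s` has circumradius `≤ ρ`, vertices in the large square, sides `≤ 2ρ` -/
theorem pvmt_tile {ρ s L : ℝ} {w : ℂ} {η : Conf PvPt} {t : ℂ × ℂ × ℂ} (hρ : 0 < ρ) (hL : s + 2 * ρ ≤ L) (hn : PvNet ρ (pvmSq w L) η)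
    (ht : PvmtAt (cfSites η) (pvmSq w s) t) :
    ‖delO t.1 t.2.1 t.2.2 - t.1‖ ≤ ρ ∧ t.1 ∈ pvmSq w L ∧ t.2.1 ∈ pvmSq w L ∧ t.2.2 ∈ pvmSq w L ∧
      ‖t.1 - t.2.1‖ ≤ 2 * ρ ∧ ‖t.2.1 - t.2.2‖ ≤ 2 * ρ ∧ ‖t.2.2 - t.1‖ ≤ 2 * ρ := by
  have hd : VorDense (cfSites η) (vorNbd (pvmSq w s) (2 * ρ)) ρ :=
    (pvmt_dense_of_net hn).mono subset_rfl ((pvmt_nbd_Sq w s (2 * ρ)).trans (pvm_Sq_mono hL)) le_rfl
  have key : ∀ {a b c : ℂ}, PvmtHit (cfSites η) (pvmSq w s) a b c → ‖delO a b c - a‖ ≤ ρ ∧ a ∈ pvmSq w L ∧ ‖a - b‖ ≤ 2 * ρ := by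
    intro a b c h
    have hr := h.radius hρ.le (by linarith) hd
    obtain ⟨x, hx, h2⟩ := h.vertex
    exact ⟨hr, pvm_Sq_mono hL (pvmt_Sq_add hx (h2.trans (by linarith))), (pvmt_side_le h.1).trans (by linarith)⟩
  have h0 : PvmtHit (cfSites η) (pvmSq w s) t.1 t.2.1 t.2.2 := ht
  obtain ⟨r1, v1, s1⟩ := key h0
  obtain ⟨_, v2, s2⟩ := key h0.cyc
  obtain ⟨_, v3, s3⟩ := key h0.cyc.cyc
  exact ⟨r1, v1, v2, v3, s1, s2, s3⟩

/-- **CARD**: a finite set of triples of sites of the square of half side `L` has at most `N(square)³` elements -/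
theorem pvmt_card {L : ℝ} {w : ℂ} {η : Conf PvPt} (F : Finset (ℂ × ℂ × ℂ))
    (hF : ∀ t ∈ F, t.1 ∈ cfSites η ∩ pvmSq w L ∧ t.2.1 ∈ cfSites η ∩ pvmSq w L ∧ t.2.2 ∈ cfSites η ∩ pvmSq w L) :
    (F.card : ℝ≥0∞) ≤ pvmN (pvmSqP w L) η ^ 3 :=
  pvmt_triples_card_le F fun t ht => ⟨(hF t ht).1, (hF t ht).2.1, (hF t ht).2.2⟩

/-- `TILE` + `CARD` -/
theorem pvmt_tile_card {ρ s L : ℝ} {w : ℂ} {η : Conf PvPt} (hρ : 0 < ρ) (hL : s + 2 * ρ ≤ L) (hn : PvNet ρ (pvmSq w L) η) (F : Finset (ℂ × ℂ × ℂ))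
    (hF : ∀ t ∈ F, PvmtAt (cfSites η) (pvmSq w s) t) : (F.card : ℝ≥0∞) ≤ pvmN (pvmSqP w L) η ^ 3 := by
  refine pvmt_card F fun t ht => ?_
  obtain ⟨_, v1, v2, v3, _⟩ := pvmt_tile hρ hL hn (hF t ht)
  have hd := (hF t ht).1
  exact ⟨⟨hd.1, v1⟩, ⟨hd.2.1, v2⟩, ⟨hd.2.2.1, v3⟩⟩

/-! ## B. moments of `∑ diam^k` over the triangles attached to a square      (helper127) -/

/-- the diameter (longest side) of a triple -/
noncomputable def pvmtD (t : ℂ × ℂ × ℂ) : ℝ := max ‖t.1 - t.2.1‖ (max ‖t.2.1 - t.2.2‖ ‖t.2.2 - t.1‖)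

theorem pvmt_D_nonneg (t : ℂ × ℂ × ℂ) : 0 ≤ pvmtD t := le_max_of_le_left (norm_nonneg _)

theorem PvmtAt.mono {Y S S' : Set ℂ} {t : ℂ × ℂ × ℂ} (h : PvmtAt Y S t) (hS : S ⊆ S') : PvmtAt Y S' t := by
  obtain ⟨h1, x, hx, h2⟩ := h
  exact ⟨h1, x, hS hx, h2⟩

/-- one tile: the sum of `diam^k` over ANY finite family of Delaunay triangles whose circumdisc meets the tile is below the universal majorant -/
theorem pvmt_sum_tile (k : ℕ) {ε : ℝ} (hε : 0 < ε) (w : ℂ) (η : Conf PvPt) (F : Finset (ℂ × ℂ × ℂ))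
    (hF : ∀ t ∈ F, PvmtAt (cfSites η) (pvmSq w (ε / 2)) t) : ∑ t ∈ F, ENNReal.ofReal (pvmtD t ^ k) ≤ pvmZ k 3 3 ε w η := by
  refine pvm_Z_ge fun j hj => ?_
  have hj0 : (0 : ℝ) < (j : ℝ) + 1 := by positivity
  set ρ : ℝ := ((j : ℝ) + 1) * ε with hρ
  have hρ0 : 0 < ρ := mul_pos hj0 hε
  have hερ : ε ≤ ρ := by rw [hρ]; nlinarith [Nat.cast_nonneg (α := ℝ) j]
  have eL : 3 * ((j : ℝ) + 1) * ε = 3 * ρ := by rw [hρ]; ring
  rw [eL] at hj ⊢
  have hnet : PvNet ρ (pvmSq w (3 * ρ)) η := pvm_net_of_netC (pvm_good_net hρ0 hj)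
  have hL : ε / 2 + 2 * ρ ≤ 3 * ρ := by linarith
  have h1 : ∀ t ∈ F, ENNReal.ofReal (pvmtD t ^ k) ≤ ENNReal.ofReal ((3 * ρ) ^ k) := by
    intro t ht
    obtain ⟨-, -, -, -, a, b, c⟩ := pvmt_tile hρ0 hL hnet (hF t ht)
    refine ENNReal.ofReal_le_ofReal (pow_le_pow_left₀ (pvmt_D_nonneg t) ?_ k)
    exact max_le (by linarith) (max_le (by linarith) (by linarith))
  have h2 : (F.card : ℝ≥0∞) ≤ (pvmN (pvmSqP w (3 * ρ)) η) ^ 3 := by
    refine pvmt_card F fun t ht => ?_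
    obtain ⟨-, a, b, c, -⟩ := pvmt_tile hρ0 hL hnet (hF t ht)
    obtain ⟨⟨ha, hb, hc, -⟩, -⟩ := hF t ht
    exact ⟨⟨ha, a⟩, ⟨hb, b⟩, ⟨hc, c⟩⟩
  calc ∑ t ∈ F, ENNReal.ofReal (pvmtD t ^ k) ≤ ∑ _t ∈ F, ENNReal.ofReal ((3 * ρ) ^ k) := Finset.sum_le_sum h1
    _ = ENNReal.ofReal ((3 * ρ) ^ k) * (F.card : ℝ≥0∞) := by rw [Finset.sum_const, nsmul_eq_mul, mul_comm]
    _ ≤ _ := by gcongr

/-- a square: the same with the majorant of the square -/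
theorem pvmt_sum_sq (k : ℕ) {ε : ℝ} (hε : 0 < ε) (w : ℂ) (s : ℝ) (η : Conf PvPt) (F : Finset (ℂ × ℂ × ℂ))
    (hF : ∀ t ∈ F, PvmtAt (cfSites η) (pvmSq w s) t) : ∑ t ∈ F, ENNReal.ofReal (pvmtD t ^ k) ≤ pvmZS k 3 3 ε w s η := by
  refine pvm_sum_le_tiles F _ _ (fun t i => PvmtAt (cfSites η) (pvmSq (pvmTc ε w i) (ε / 2)) t) ?_ _ ?_
  · intro t ht
    obtain ⟨h1, x, hx, h2⟩ := hF t ht
    obtain ⟨i, hi, hxi⟩ := pvm_tile_cover hε hx
    exact ⟨i, hi, h1, x, hxi, h2⟩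
  · intro i _ G _ hG
    exact pvmt_sum_tile k hε _ η G hG

/-- **(prob:mesh-moments)**: there is `K = K(p, k)` such that at every mesh `ε`, for every square, the measurable function `pvmZS k 3 3 ε w s`
dominates `∑ diam^k` over every finite family of Delaunay triangles whose circumdisc meets the square, and `E Z^p ≤ K (ε^k ((s+ε)/ε)²)^p` -/
theorem pvmt_mom {p : ℕ} (hp : p ≠ 0) (k : ℕ) : ∃ K : ℝ, 0 ≤ K ∧ ∀ (ε : ℝ), 0 < ε → ∀ (μ : Measure (Conf PvPt)), IsPpp (pvInt ε) μ →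
    ∀ (w : ℂ) (s : ℝ), 0 ≤ s → ∫⁻ η, pvmZS k 3 3 ε w s η ^ p ∂μ ≤ ENNReal.ofReal (K * (ε ^ k * ((s + ε) / ε) ^ 2) ^ p) :=
  pvm_ZS_mom hp k 3 (by norm_num)

/-- the form of (8.4): second moment of `∑ diam²` in a ball of radius `r ≥ ε` is `≤ C r⁴` -/
theorem pvmt_var : ∃ C : ℝ, 0 ≤ C ∧ ∀ (ε : ℝ), 0 < ε → ∀ (μ : Measure (Conf PvPt)), IsPpp (pvInt ε) μ →
    ∀ (w : ℂ) (r : ℝ), ε ≤ r → ∫⁻ η, pvmZS 2 3 3 ε w r η ^ 2 ∂μ ≤ ENNReal.ofReal (C * r ^ 4) := by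
  obtain ⟨K, hK, h⟩ := pvmt_mom (p := 2) (by norm_num) 2
  refine ⟨16 * K, by positivity, fun ε hε μ hμ w r hr => (h ε hε μ hμ w r (by linarith)).trans (ENNReal.ofReal_le_ofReal ?_)⟩
  have e : ε ^ 2 * ((r + ε) / ε) ^ 2 = (r + ε) ^ 2 := by field_simp
  rw [e]
  have h1 : (r + ε) ^ 2 ≤ (2 * r) ^ 2 := pow_le_pow_left₀ (by linarith) (by linarith) 2
  have h2 : ((r + ε) ^ 2) ^ 2 ≤ ((2 * r) ^ 2) ^ 2 := pow_le_pow_left₀ (by positivity) h1 2
  calc K * ((r + ε) ^ 2) ^ 2 ≤ K * ((2 * r) ^ 2) ^ 2 := mul_le_mul_of_nonneg_left h2 hK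
    _ = _ := by ring

theorem pvmt_ball_sub (w : ℂ) (r : ℝ) : Metric.closedBall w r ⊆ pvmSq w r := by
  intro z hz
  rw [Metric.mem_closedBall, dist_eq_norm] at hz
  refine ⟨?_, ?_⟩
  · rw [← Complex.sub_re]; exact (Complex.abs_re_le_norm _).trans hz
  · rw [← Complex.sub_im]; exact (Complex.abs_im_le_norm _).trans hz

/-- a Delaunay triangle which (as a closed set) meets `S` is attached to `S` -/
theorem pvmt_at_of_delT {Y S : Set ℂ} {a b c : ℂ} (h : DelTri Y a b c) (hm : (delT a b c ∩ S).Nonempty) : PvmtAt Y S (a, b, c) := by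
  obtain ⟨x, hx, hxS⟩ := hm
  have hdet : 0 < vorDet a b c := h.2.2.2.1
  have h1 := del_O_ab a b c
  have h2 := del_O_ac hdet.ne'
  have h3 := dela_subset_ball (z := delO a b c) (r := ‖delO a b c - a‖) hdet le_rfl h1.symm.le h2.symm.le hx
  rw [Metric.mem_closedBall, dist_eq_norm] at h3
  exact ⟨h, x, hxS, h3⟩

/-- on the good mesh event all the triangles attached to the square are small -/
theorem pvmt_small {ρ s : ℝ} (hρ : 0 < ρ) {w : ℂ} {η : Conf PvPt} (hG : η ∈ pvmGood univ ρ w (s + 2 * ρ)) {t : ℂ × ℂ × ℂ}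
    (ht : PvmtAt (cfSites η) (pvmSq w s) t) : pvmtD t ≤ 2 * ρ := by
  obtain ⟨-, -, -, -, a, b, c⟩ := pvmt_tile hρ le_rfl (pvm_net_of_netC (pvm_good_net hρ hG)) ht
  exact max_le a (max_le b c)

/-- the series form -/
theorem pvmt_tsum_sq (k : ℕ) {ε : ℝ} (hε : 0 < ε) (w : ℂ) (s : ℝ) (η : Conf PvPt) :
    ∑' t : {t : ℂ × ℂ × ℂ // PvmtAt (cfSites η) (pvmSq w s) t}, ENNReal.ofReal (pvmtD t.1 ^ k) ≤ pvmZS k 3 3 ε w s η := by
  rw [ENNReal.tsum_eq_iSup_sum]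
  refine iSup_le fun G => ?_
  have h1 := pvmt_sum_sq k hε w s η (G.map (Function.Embedding.subtype _)) (by
    intro t ht
    obtain ⟨u, -, rfl⟩ := Finset.mem_map.1 ht
    exact u.2)
  rwa [Finset.sum_map] at h1

theorem pvmt_B_eqns_cite : True := by
  have := @pvmtD.eq_1
  trivial

end Claimed.Agent.R289
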