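import Claimed.Agent.R289.Mesh.Net

/-!
# Row 289 (S0537), box MESH, file Mesh/Cnt : POISSON COUNTS AND THEIR MOMENTS FROM THE VOID PROBABILITIES      (owner helper127; prefix `pvm_`)

No explicit construction, no scaling: only `IsPpp m μ`.
* `pvmN B η : ℝ≥0∞` = number of points of `η` in `B`; `pvm_N_mono`, `pvm_N_mono_conf`, `pvm_N_union_le`, `pvm_card_le_N`, `pvm_N_pow_le_of`, `pvm_N_le_of`
* `PvmSep B ix I` = separating sequence of finite measurable partitions of `B` (index maps); `pvmNl` (occupied pieces), `pvm_N_eq_iSup`, **`pvm_N_meas`**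
* `pvmG t B ix I` = measurable majorant of `(1 + t) ^ count`, `pvm_G_lint : E G ≤ exp (t a)` (Fatou + product formula `pvm_W_prod_le`)
* **`pvm_N_mom : E N(B)^q ≤ 3 q! (2a)^q`** if `m B ≤ a`, `1 ≤ a` (polynomial in the intensity `a`); `pvm_N_ae_fin`
* coloured plane: `pvm_sep_pv` (dyadic-like grids), `pvm_cnt_meas`, `pvm_cnt_mom`, squares `pvmSqP w L`, `pvm_SqP_int`, **`pvm_SqP_mom`**, `pvm_locfin_ae`
-/

set_option autoImplicit false
set_option linter.unusedSectionVars false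

namespace Claimed.Agent.R289

open MeasureTheory ProbabilityTheory Set Filter Topology
open scoped ENNReal NNReal

section gen

variable {E : Type*} [MeasurableSpace E]

/-- number of points of `η` in `B` (extended nonnegative real) -/
noncomputable def pvmN (B : Set E) (η : Conf E) : ℝ≥0∞ := ((η.pts ∩ B).encard : ℝ≥0∞)

theorem pvm_N_mono {B C : Set E} (h : B ⊆ C) (η : Conf E) : pvmN B η ≤ pvmN C η :=
  ENat.toENNReal_le.2 (Set.encard_le_encard (inter_subset_inter_right _ h))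

theorem pvm_N_mono_conf (B : Set E) {η η' : Conf E} (h : η.pts ⊆ η'.pts) : pvmN B η ≤ pvmN B η' :=
  ENat.toENNReal_le.2 (Set.encard_le_encard (inter_subset_inter_left _ h))

theorem pvm_N_union_le (B C : Set E) (η : Conf E) : pvmN (B ∪ C) η ≤ pvmN B η + pvmN C η := by
  unfold pvmN
  rw [inter_union_distrib_left, ← ENat.toENNReal_add]
  exact ENat.toENNReal_le.2 (Set.encard_union_le _ _)

theorem pvm_card_le_N {B : Set E} {η : Conf E} (s : Finset E) (hs : (s : Set E) ⊆ η.pts ∩ B) : (s.card : ℝ≥0∞) ≤ pvmN B η := by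
  unfold pvmN
  rw [← ENat.toENNReal_coe, ← Set.encard_coe_eq_coe_finsetCard]
  exact ENat.toENNReal_le.2 (Set.encard_le_encard hs)

/-- to bound a power of the count it is enough to bound it on the finite subsets -/
theorem pvm_N_pow_le_of {B : Set E} {η : Conf E} {c : ℝ≥0∞} (q : ℕ)
    (h : ∀ s : Finset E, (s : Set E) ⊆ η.pts ∩ B → (s.card : ℝ≥0∞) ^ q ≤ c) : (pvmN B η) ^ q ≤ c := by
  by_cases hf : (η.pts ∩ B).Finite
  · have := h hf.toFinset (by simp)
    have e : pvmN B η = (hf.toFinset.card : ℝ≥0∞) := by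
      unfold pvmN
      rw [hf.encard_eq_coe_toFinset_card, ENat.toENNReal_coe]
    rwa [e]
  · rcases Nat.eq_zero_or_pos q with rfl | hq
    · simpa using h ∅ (by simp)
    · have hc : c = ∞ := by
        refine ENNReal.eq_top_of_forall_nnreal_le fun r => ?_
        obtain ⟨n, hn⟩ := exists_nat_ge r
        obtain ⟨s, hs, hcard⟩ := (Set.not_finite.1 hf).exists_subset_card_eq n
        have h1 := h s hs
        rw [hcard] at h1
        refine le_trans ?_ h1
        calc (r : ℝ≥0∞) ≤ (n : ℝ≥0∞) := by exact_mod_cast hn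
          _ ≤ (n : ℝ≥0∞) ^ q := by
            rcases Nat.eq_zero_or_pos n with rfl | hn0
            · simp
            · exact le_self_pow₀ (by exact_mod_cast hn0) hq.ne'
      rw [hc]; exact le_top

theorem pvm_N_le_of {B : Set E} {η : Conf E} {c : ℝ≥0∞}
    (h : ∀ s : Finset E, (s : Set E) ⊆ η.pts ∩ B → (s.card : ℝ≥0∞) ≤ c) : pvmN B η ≤ c := by
  have := pvm_N_pow_le_of (B := B) (η := η) (c := c) 1 (by simpa using h)
  simpa using this

/-- a separating sequence of finite measurable partitions of `B`, given by index maps -/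
structure PvmSep (B : Set E) {κ : Type*} (ix : ℕ → E → κ) (I : ℕ → Finset κ) : Prop where
  meas : ∀ N k, MeasurableSet {p | ix N p = k}
  mem : ∀ N, ∀ p ∈ B, ix N p ∈ I N
  sep : ∀ p ∈ B, ∀ q ∈ B, p ≠ q → ∀ᶠ N in atTop, ix N p ≠ ix N q

/-- the piece of index `k` at level `N` -/
def pvmPc (B : Set E) {κ : Type*} (ix : ℕ → E → κ) (N : ℕ) (k : κ) : Set E := B ∩ {p | ix N p = k}

variable {B : Set E} {κ : Type*} {ix : ℕ → E → κ} {I : ℕ → Finset κ}

theorem pvm_Pc_meas (hS : PvmSep B ix I) (hB : MeasurableSet B) (N : ℕ) (k : κ) : MeasurableSet (pvmPc B ix N k) := hB.inter (hS.meas N k)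

theorem pvm_Pc_disj (B : Set E) (ix : ℕ → E → κ) (N : ℕ) (J : Set κ) : J.PairwiseDisjoint (pvmPc B ix N) := by
  intro k _ l _ hkl
  exact Set.disjoint_left.2 fun p hp hp' => hkl (hp.2.symm.trans hp'.2)

theorem pvm_Pc_union (B : Set E) (ix : ℕ → E → κ) (N : ℕ) (J : Finset κ) : (⋃ k ∈ J, pvmPc B ix N k) ⊆ B := by
  intro p hp
  simp only [mem_iUnion] at hp
  obtain ⟨k, _, hp⟩ := hp
  exact hp.1

theorem pvm_sep_inj (hS : PvmSep B ix I) (s : Finset E) (hs : (s : Set E) ⊆ B) : ∀ᶠ N in atTop, Set.InjOn (ix N) s := by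
  have : ∀ᶠ N in atTop, ∀ p ∈ s, ∀ q ∈ s, p ≠ q → ix N p ≠ ix N q := by
    rw [Filter.eventually_all_finset]; intro p hp
    rw [Filter.eventually_all_finset]; intro q hq
    by_cases h : p = q
    · exact Eventually.of_forall fun N hne => absurd h hne
    · exact (hS.sep p (hs hp) q (hs hq) h).mono fun N hN _ => hN
  filter_upwards [this] with N hN p hp q hq hpq
  by_contra hne
  exact hN p hp q hq hne hpq

/-- the exponential weight of level `N` -/
noncomputable def pvmF (t : ℝ≥0∞) (B : Set E) (ix : ℕ → E → κ) (I : ℕ → Finset κ) (N : ℕ) (η : Conf E) : ℝ≥0∞ :=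
  ∏ k ∈ I N, pvmW t (pvmPc B ix N k) η

theorem pvm_F_meas (hS : PvmSep B ix I) (hB : MeasurableSet B) (t : ℝ≥0∞) (N : ℕ) : Measurable (pvmF t B ix I N) :=
  Finset.measurable_fun_prod _ fun k _ => pvm_W_meas t (pvm_Pc_meas hS hB N k)

theorem pvm_F_ge (hS : PvmSep B ix I) (t : ℝ≥0∞) (N : ℕ) {η : Conf E} (s : Finset E) (hs : (s : Set E) ⊆ η.pts ∩ B)
    (hinj : Set.InjOn (ix N) s) : (1 + t) ^ s.card ≤ pvmF t B ix I N η := by
  classical
  have h1 : s.image (ix N) ⊆ I N := by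
    intro k hk
    obtain ⟨p, hp, rfl⟩ := Finset.mem_image.1 hk
    exact hS.mem N p (hs hp).2
  calc (1 + t) ^ s.card = ∏ _k ∈ s.image (ix N), (1 + t) := by rw [Finset.prod_const, Finset.card_image_of_injOn hinj]
    _ = ∏ k ∈ s.image (ix N), pvmW t (pvmPc B ix N k) η := by
        refine Finset.prod_congr rfl fun k hk => ?_
        obtain ⟨p, hp, rfl⟩ := Finset.mem_image.1 hk
        have hocc : η ∈ pvmOcc (pvmPc B ix N (ix N p)) := ⟨p, (hs hp).1, (hs hp).2, rfl⟩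
        exact (pvm_W_occ hocc).symm
    _ ≤ pvmF t B ix I N η := Finset.prod_le_prod_of_subset_of_one_le' h1 fun k _ _ => pvm_one_le_W _ _ _

/-- the measurable majorant of `(1 + t) ^ count` -/
noncomputable def pvmG (t : ℝ≥0∞) (B : Set E) (ix : ℕ → E → κ) (I : ℕ → Finset κ) (η : Conf E) : ℝ≥0∞ :=
  liminf (fun N => pvmF t B ix I N η) atTop

theorem pvm_G_meas (hS : PvmSep B ix I) (hB : MeasurableSet B) (t : ℝ≥0∞) : Measurable (pvmG t B ix I) :=
  Measurable.liminf fun N => pvm_F_meas hS hB t N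

theorem pvm_G_ge (hS : PvmSep B ix I) (t : ℝ≥0∞) {η : Conf E} (s : Finset E) (hs : (s : Set E) ⊆ η.pts ∩ B) :
    (1 + t) ^ s.card ≤ pvmG t B ix I η := by
  refine le_liminf_of_le (by isBoundedDefault) ?_
  filter_upwards [pvm_sep_inj hS s (hs.trans inter_subset_right)] with N hN
  exact pvm_F_ge hS t N s hs hN

theorem pvm_G_lint {m : Measure E} {μ : Measure (Conf E)} (h : IsPpp m μ) (hS : PvmSep B ix I) (hB : MeasurableSet B) {t a : ℝ} (ht : 0 ≤ t)
    (ha0 : 0 ≤ a) (ha : m B ≤ ENNReal.ofReal a) : ∫⁻ η, pvmG (ENNReal.ofReal t) B ix I η ∂μ ≤ ENNReal.ofReal (Real.exp (t * a)) := by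
  refine (lintegral_liminf_le fun N => pvm_F_meas hS hB _ N).trans ?_
  have h1 : ∀ N, ∫⁻ η, pvmF (ENNReal.ofReal t) B ix I N η ∂μ ≤ ENNReal.ofReal (Real.exp (t * a)) := fun N =>
    pvm_W_prod_le h ht ha0 (I N) (pvmPc B ix N) (fun k _ => pvm_Pc_meas hS hB N k) (pvm_Pc_disj B ix N _)
      ((measure_mono (pvm_Pc_union B ix N (I N))).trans ha)
  calc liminf (fun N => ∫⁻ η, pvmF (ENNReal.ofReal t) B ix I N η ∂μ) atTop
      ≤ liminf (fun _ : ℕ => ENNReal.ofReal (Real.exp (t * a))) atTop := liminf_le_liminf (Eventually.of_forall h1)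
    _ = _ := liminf_const _

/-! ### measurability of the count -/

/-- the number of occupied pieces of level `N` -/
noncomputable def pvmNl (B : Set E) (ix : ℕ → E → κ) (I : ℕ → Finset κ) (N : ℕ) (η : Conf E) : ℝ≥0∞ :=
  ∑ k ∈ I N, (pvmOcc (pvmPc B ix N k)).indicator (fun _ => (1 : ℝ≥0∞)) η

theorem pvm_Nl_meas (hS : PvmSep B ix I) (hB : MeasurableSet B) (N : ℕ) : Measurable (pvmNl B ix I N) :=
  Finset.measurable_fun_sum _ fun k _ => measurable_const.indicator (pvm_occ_meas (pvm_Pc_meas hS hB N k))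

theorem pvm_Nl_le (B : Set E) (ix : ℕ → E → κ) (I : ℕ → Finset κ) (N : ℕ) (η : Conf E) : pvmNl B ix I N η ≤ pvmN B η := by
  classical
  have h1 : pvmNl B ix I N η = (((I N).filter fun k => η ∈ pvmOcc (pvmPc B ix N k)).card : ℝ≥0∞) := by
    unfold pvmNl
    rw [Finset.card_filter]
    push_cast
    refine Finset.sum_congr rfl fun k _ => ?_
    by_cases hk : η ∈ pvmOcc (pvmPc B ix N k)
    · rw [indicator_of_mem hk, if_pos hk]
    · rw [indicator_of_notMem hk, if_neg hk]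
  rw [h1]
  by_cases hne : Nonempty E
  swap
  · have : ((I N).filter fun k => η ∈ pvmOcc (pvmPc B ix N k)) = ∅ :=
      Finset.filter_eq_empty_iff.2 fun k _ hk => hne ⟨hk.choose⟩
    rw [this]; simp
  have h2 : ∀ k ∈ (I N).filter fun k => η ∈ pvmOcc (pvmPc B ix N k), ∃ p, p ∈ η.pts ∧ p ∈ pvmPc B ix N k := fun k hk => (Finset.mem_filter.1 hk).2
  choose! f hf using h2
  have hinj : Set.InjOn f ((I N).filter fun k => η ∈ pvmOcc (pvmPc B ix N k)) := by
    intro k hk l hl hkl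
    have a := (hf k hk).2.2
    have b := (hf l hl).2.2
    simp only [mem_ofPred_eq] at a b
    rw [← a, ← b, hkl]
  rw [← Finset.card_image_of_injOn hinj]
  refine pvm_card_le_N _ ?_
  intro p hp
  obtain ⟨k, hk, rfl⟩ := Finset.mem_image.1 (Finset.mem_coe.1 hp)
  exact ⟨(hf k hk).1, (hf k hk).2.1⟩

theorem pvm_card_le_Nl (hS : PvmSep B ix I) (N : ℕ) {η : Conf E} (s : Finset E) (hs : (s : Set E) ⊆ η.pts ∩ B)
    (hinj : Set.InjOn (ix N) s) : (s.card : ℝ≥0∞) ≤ pvmNl B ix I N η := by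
  classical
  have h1 : s.image (ix N) ⊆ I N := by
    intro k hk
    obtain ⟨p, hp, rfl⟩ := Finset.mem_image.1 hk
    exact hS.mem N p (hs hp).2
  calc (s.card : ℝ≥0∞) = ∑ _k ∈ s.image (ix N), (1 : ℝ≥0∞) := by
        rw [Finset.sum_const, Finset.card_image_of_injOn hinj, nsmul_eq_mul, mul_one]
    _ = ∑ k ∈ s.image (ix N), (pvmOcc (pvmPc B ix N k)).indicator (fun _ => (1 : ℝ≥0∞)) η := by
        refine Finset.sum_congr rfl fun k hk => ?_
        obtain ⟨p, hp, rfl⟩ := Finset.mem_image.1 hk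
        have hocc : η ∈ pvmOcc (pvmPc B ix N (ix N p)) := ⟨p, (hs hp).1, (hs hp).2, rfl⟩
        rw [indicator_of_mem hocc]
    _ ≤ pvmNl B ix I N η := Finset.sum_le_sum_of_subset h1

theorem pvm_N_eq_iSup (hS : PvmSep B ix I) (η : Conf E) : pvmN B η = ⨆ N, pvmNl B ix I N η := by
  refine le_antisymm (pvm_N_le_of fun s hs => ?_) (iSup_le fun N => pvm_Nl_le B ix I N η)
  obtain ⟨N, hN⟩ := (pvm_sep_inj hS s (hs.trans inter_subset_right)).exists
  exact (pvm_card_le_Nl hS N s hs hN).trans (le_iSup (fun N => pvmNl B ix I N η) N)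

/-- **the count is measurable** for the void sigma-algebra -/
theorem pvm_N_meas (hS : PvmSep B ix I) (hB : MeasurableSet B) : Measurable (pvmN B) := by
  have : pvmN B = fun η => ⨆ N, pvmNl B ix I N η := funext (pvm_N_eq_iSup hS)
  rw [this]
  exact Measurable.iSup fun N => pvm_Nl_meas hS hB N

/-! ### moments -/

theorem pvm_real_ineq {a : ℝ} (ha : 1 ≤ a) (n q : ℕ) : (n : ℝ) ^ q ≤ q.factorial * (2 * a) ^ q * (1 + 1 / a) ^ n := by
  have ha0 : 0 < a := by linarith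
  set y : ℝ := 1 / (2 * a) with hy
  have hy0 : 0 < y := by positivity
  have hy1 : y ≤ 1 / 2 := by
    rw [hy]; apply div_le_div_of_nonneg_left (by norm_num) (by norm_num); linarith
  have h1 : Real.exp y ≤ 1 + 1 / a := by
    have h2 := Real.one_sub_le_exp_neg y
    have h3 : Real.exp y * Real.exp (-y) = 1 := by rw [← Real.exp_add]; simp
    have h4 : 0 < Real.exp y := Real.exp_pos y
    have h5 : Real.exp y * (1 - y) ≤ 1 := (mul_le_mul_of_nonneg_left h2 h4.le).trans h3.le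
    have e : 1 / a = 2 * y := by rw [hy]; field_simp
    rw [e]
    nlinarith
  have h2 : Real.exp (n * y) ≤ (1 + 1 / a) ^ n := by
    rw [Real.exp_nat_mul]; exact pow_le_pow_left₀ (Real.exp_pos _).le h1 n
  have h3 := Real.pow_div_factorial_le_exp (x := n * y) (by positivity) q
  have hq : (0 : ℝ) < q.factorial := by exact_mod_cast q.factorial_pos
  rw [div_le_iff₀ hq] at h3
  have e : (n : ℝ) ^ q = (n * y) ^ q * (2 * a) ^ q := by
    rw [← mul_pow]; congr 1; rw [hy]; field_simp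
  rw [e]
  have h4 : (n * y) ^ q ≤ (1 + 1 / a) ^ n * q.factorial := h3.trans (mul_le_mul_of_nonneg_right h2 hq.le)
  calc (n * y) ^ q * (2 * a) ^ q ≤ ((1 + 1 / a) ^ n * q.factorial) * (2 * a) ^ q := mul_le_mul_of_nonneg_right h4 (by positivity)
    _ = _ := by ring

theorem pvm_N_pow_le_G (hS : PvmSep B ix I) {a : ℝ} (ha : 1 ≤ a) (q : ℕ) (η : Conf E) :
    (pvmN B η) ^ q ≤ ENNReal.ofReal (q.factorial * (2 * a) ^ q) * pvmG (ENNReal.ofReal (1 / a)) B ix I η := by
  have ha0 : 0 < a := by linarith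
  refine pvm_N_pow_le_of q fun s hs => ?_
  refine le_trans ?_ (mul_le_mul_right (pvm_G_ge hS _ s hs) _)
  have h1 := pvm_real_ineq ha s.card q
  have e1 : (s.card : ℝ≥0∞) ^ q = ENNReal.ofReal ((s.card : ℝ) ^ q) := by
    rw [ENNReal.ofReal_pow (by positivity), ENNReal.ofReal_natCast]
  have e2 : (1 + ENNReal.ofReal (1 / a)) ^ s.card = ENNReal.ofReal ((1 + 1 / a) ^ s.card) := by
    rw [ENNReal.ofReal_pow (by positivity), ENNReal.ofReal_add zero_le_one (by positivity), ENNReal.ofReal_one]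
  rw [e1, e2, ← ENNReal.ofReal_mul (by positivity)]
  exact ENNReal.ofReal_le_ofReal h1

/-- **Poisson count moments**, from the void probabilities only: `E N(B)^q ≤ 3 q! (2a)^q` if `m B ≤ a`, `a ≥ 1` -/
theorem pvm_N_mom {m : Measure E} {μ : Measure (Conf E)} (h : IsPpp m μ) (hS : PvmSep B ix I) (hB : MeasurableSet B) {a : ℝ} (ha : 1 ≤ a)
    (hm : m B ≤ ENNReal.ofReal a) (q : ℕ) : ∫⁻ η, (pvmN B η) ^ q ∂μ ≤ ENNReal.ofReal (3 * (q.factorial * (2 * a) ^ q)) := by
  have ha0 : 0 < a := by linarith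
  calc ∫⁻ η, (pvmN B η) ^ q ∂μ ≤ ∫⁻ η, ENNReal.ofReal (q.factorial * (2 * a) ^ q) * pvmG (ENNReal.ofReal (1 / a)) B ix I η ∂μ :=
        lintegral_mono fun η => pvm_N_pow_le_G hS ha q η
    _ = ENNReal.ofReal (q.factorial * (2 * a) ^ q) * ∫⁻ η, pvmG (ENNReal.ofReal (1 / a)) B ix I η ∂μ :=
        lintegral_const_mul _ (pvm_G_meas hS hB _)
    _ ≤ ENNReal.ofReal (q.factorial * (2 * a) ^ q) * ENNReal.ofReal (Real.exp (1 / a * a)) :=
        mul_le_mul_right (pvm_G_lint h hS hB (by positivity) ha0.le hm) _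
    _ ≤ ENNReal.ofReal (3 * (q.factorial * (2 * a) ^ q)) := by
        rw [← ENNReal.ofReal_mul (by positivity)]
        apply ENNReal.ofReal_le_ofReal
        have e : 1 / a * a = 1 := by field_simp
        rw [e]
        have := Real.exp_one_lt_d9
        have h0 : (0 : ℝ) ≤ q.factorial * (2 * a) ^ q := by positivity
        nlinarith

/-- almost surely finitely many points in a set of finite intensity -/
theorem pvm_N_ae_fin {m : Measure E} {μ : Measure (Conf E)} (h : IsPpp m μ) (hS : PvmSep B ix I) (hB : MeasurableSet B) (hm : m B ≠ ∞) :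
    ∀ᵐ η ∂μ, (η.pts ∩ B).Finite := by
  have h1 : m B ≤ ENNReal.ofReal (max 1 (m B).toReal) := by
    conv_lhs => rw [← ENNReal.ofReal_toReal hm]
    exact ENNReal.ofReal_le_ofReal (le_max_right _ _)
  have h2 := pvm_N_mom h hS hB (le_max_left 1 (m B).toReal) h1 1
  simp only [pow_one] at h2
  have h3 : ∀ᵐ η ∂μ, pvmN B η < ∞ := ae_lt_top (pvm_N_meas hS hB) (ne_top_of_le_ne_top ENNReal.ofReal_ne_top h2)
  filter_upwards [h3] with η hη
  unfold pvmN at hη
  rw [ENat.toENNReal_lt_top] at hη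
  exact Set.encard_lt_top_iff.1 hη

end gen

/-! ## 2. the coloured plane -/

/-- index map of level `N`: grid box of mesh `1 / (N + 1)` and colour -/
noncomputable def pvmIxN (N : ℕ) (p : PvPt) : (ℤ × ℤ) × Bool := (pvmIx (1 / ((N : ℝ) + 1)) p.1, p.2)

/-- the finite index set of level `N` for the square of centre `w`, half side `L` -/
noncomputable def pvmIN (w : ℂ) (L : ℝ) (N : ℕ) : Finset ((ℤ × ℤ) × Bool) :=
  pvmIdx (pvmIx (1 / ((N : ℝ) + 1)) w) (⌈L / (1 / ((N : ℝ) + 1))⌉₊ + 1) ×ˢ Finset.univ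

theorem pvm_sep_pv {B : Set PvPt} {w : ℂ} {L : ℝ} (hb : ∀ p ∈ B, p.1 ∈ pvmSq w L) : PvmSep B pvmIxN (pvmIN w L) where
  meas := by
    intro N k
    have hδ : (0 : ℝ) < 1 / ((N : ℝ) + 1) := by positivity
    have : {p : PvPt | pvmIxN N p = k} = pvmQ (1 / ((N : ℝ) + 1)) k.1 ×ˢ {k.2} := by
      ext p
      simp only [pvmIxN, mem_ofPred_eq, mem_prod, mem_singleton_iff, pvm_mem_Q_iff hδ, Prod.ext_iff]
    rw [this]
    exact pvm_Qc_meas _ _ _
  mem := by
    intro N p hp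
    have hδ : (0 : ℝ) < 1 / ((N : ℝ) + 1) := by positivity
    refine Finset.mem_product.2 ⟨pvm_Ix_mem hδ ?_ (hb p hp), Finset.mem_univ _⟩
    push_cast
    have := Nat.le_ceil (L / (1 / ((N : ℝ) + 1)))
    linarith
  sep := by
    intro p _ q _ hpq
    by_cases h2 : p.2 = q.2
    · have h1 : p.1 ≠ q.1 := fun h1 => hpq (Prod.ext h1 h2)
      have hd : 0 < ‖p.1 - q.1‖ := norm_pos_iff.2 (sub_ne_zero.2 h1)
      filter_upwards [eventually_ge_atTop ⌈2 / ‖p.1 - q.1‖⌉₊] with N hN hix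
      have hδ : (0 : ℝ) < 1 / ((N : ℝ) + 1) := by positivity
      have e : pvmIx (1 / ((N : ℝ) + 1)) p.1 = pvmIx (1 / ((N : ℝ) + 1)) q.1 := congrArg Prod.fst hix
      have h3 := pvm_Q_dist (pvm_mem_Q hδ p.1) (e ▸ pvm_mem_Q hδ q.1)
      have h4 : 2 / ‖p.1 - q.1‖ ≤ N := (Nat.le_ceil _).trans (by exact_mod_cast hN)
      rw [div_le_iff₀ hd] at h4
      have h5 : ‖p.1 - q.1‖ * ((N : ℝ) + 1) < 2 := by
        have : 2 * (1 / ((N : ℝ) + 1)) * ((N : ℝ) + 1) = 2 := by field_simp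
        rw [← this]
        exact mul_lt_mul_of_pos_right h3 (by positivity)
      nlinarith
    · refine Eventually.of_forall fun N hix => h2 ?_
      have : (pvmIxN N p).2 = (pvmIxN N q).2 := congrArg Prod.snd hix
      exact this

theorem pvm_cnt_meas {B : Set PvPt} (hB : MeasurableSet B) {w : ℂ} {L : ℝ} (hb : ∀ p ∈ B, p.1 ∈ pvmSq w L) : Measurable (pvmN B) :=
  pvm_N_meas (pvm_sep_pv hb) hB

/-- **count moments** in a bounded measurable set of the coloured plane: only the intensity of the set matters (no scaling needed) -/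
theorem pvm_cnt_mom {ε : ℝ} {μ : Measure (Conf PvPt)} (h : IsPpp (pvInt ε) μ) {B : Set PvPt} (hB : MeasurableSet B) {w : ℂ} {L : ℝ}
    (hb : ∀ p ∈ B, p.1 ∈ pvmSq w L) {a : ℝ} (ha : 1 ≤ a) (hm : pvInt ε B ≤ ENNReal.ofReal a) (q : ℕ) :
    ∫⁻ η, (pvmN B η) ^ q ∂μ ≤ ENNReal.ofReal (3 * (q.factorial * (2 * a) ^ q)) :=
  pvm_N_mom h (pvm_sep_pv hb) hB ha hm q

theorem pvm_Sq_eq (w : ℂ) (L : ℝ) :
    pvmSq w L = Complex.measurableEquivRealProd ⁻¹' (Icc (w.re - L) (w.re + L) ×ˢ Icc (w.im - L) (w.im + L)) := by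
  ext z
  simp only [pvmSq, mem_ofPred_eq, mem_preimage, Complex.measurableEquivRealProd_apply, mem_prod, mem_Icc, abs_le]
  constructor
  · rintro ⟨⟨a, b⟩, c, d⟩; exact ⟨⟨by linarith, by linarith⟩, by linarith, by linarith⟩
  · rintro ⟨⟨a, b⟩, c, d⟩; exact ⟨⟨by linarith, by linarith⟩, by linarith, by linarith⟩

theorem pvm_Sq_meas (w : ℂ) (L : ℝ) : MeasurableSet (pvmSq w L) := by
  rw [pvm_Sq_eq]
  exact Complex.measurableEquivRealProd.measurable (measurableSet_Icc.prod measurableSet_Icc)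

theorem pvm_Sq_vol (w : ℂ) {L : ℝ} (hL : 0 ≤ L) : volume (pvmSq w L) = ENNReal.ofReal ((2 * L) ^ 2) := by
  rw [pvm_Sq_eq, Complex.volume_preserving_equiv_real_prod.measure_preimage (measurableSet_Icc.prod measurableSet_Icc).nullMeasurableSet,
    Measure.volume_eq_prod, Measure.prod_prod, Real.volume_Icc, Real.volume_Icc, ← ENNReal.ofReal_mul (by linarith)]
  congr 1; ring

/-- the square with both colours -/
def pvmSqP (w : ℂ) (L : ℝ) : Set PvPt := pvmSq w L ×ˢ univ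

theorem pvm_SqP_meas (w : ℂ) (L : ℝ) : MeasurableSet (pvmSqP w L) := (pvm_Sq_meas w L).prod MeasurableSet.univ

theorem pvm_SqP_int (ε : ℝ) (w : ℂ) {L : ℝ} (hL : 0 ≤ L) : pvInt ε (pvmSqP w L) = ENNReal.ofReal ((2 * L / ε) ^ 2) := by
  rw [pvmSqP, pvm_int_prod, pvm_coin_univ, mul_one, pvm_Sq_vol w hL, ← ENNReal.ofReal_mul (by positivity)]
  congr 1
  rw [div_pow, inv_pow, div_eq_mul_inv]; ring

theorem pvm_SqP_cnt_meas (w : ℂ) (L : ℝ) : Measurable (pvmN (pvmSqP w L)) :=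
  pvm_cnt_meas (pvm_SqP_meas w L) (w := w) (L := L) fun _ hp => hp.1

/-- **count moments in a square**: `E N^q ≤ 3 q! (2a)^q` as soon as `(2L/ε)² ≤ a`, `1 ≤ a` -/
theorem pvm_SqP_mom {ε : ℝ} {μ : Measure (Conf PvPt)} (h : IsPpp (pvInt ε) μ) (w : ℂ) {L : ℝ} (hL : 0 ≤ L) {a : ℝ} (ha : 1 ≤ a)
    (hm : (2 * L / ε) ^ 2 ≤ a) (q : ℕ) : ∫⁻ η, (pvmN (pvmSqP w L) η) ^ q ∂μ ≤ ENNReal.ofReal (3 * (q.factorial * (2 * a) ^ q)) :=
  pvm_cnt_mom h (pvm_SqP_meas w L) (w := w) (L := L) (fun _ hp => hp.1) ha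
    (by rw [pvm_SqP_int ε w hL]; exact ENNReal.ofReal_le_ofReal hm) q

/-- almost surely every square contains finitely many sites -/
theorem pvm_locfin_ae {ε : ℝ} {μ : Measure (Conf PvPt)} (h : IsPpp (pvInt ε) μ) : ∀ᵐ η ∂μ, ∀ (w : ℂ) (L : ℝ), (η.pts ∩ pvmSqP w L).Finite := by
  have h1 : ∀ n : ℕ, ∀ᵐ η ∂μ, (η.pts ∩ pvmSqP 0 n).Finite := fun n =>
    pvm_N_ae_fin h (pvm_sep_pv (w := 0) (L := n) fun _ hp => hp.1) (pvm_SqP_meas 0 n)
      (by rw [pvm_SqP_int ε 0 (Nat.cast_nonneg n)]; exact ENNReal.ofReal_ne_top)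
  filter_upwards [ae_all_iff.2 h1] with η hη w L
  obtain ⟨n, hn⟩ := exists_nat_ge (|w.re| + |w.im| + |L|)
  refine (hη n).subset (inter_subset_inter_right _ ?_)
  rintro p ⟨⟨h1, h2⟩, -⟩
  refine ⟨⟨?_, ?_⟩, mem_univ _⟩
  · rw [Complex.zero_re, sub_zero]
    have a1 := abs_sub_abs_le_abs_sub p.1.re w.re
    have a2 := le_abs_self L
    have a3 := abs_nonneg w.im
    linarith
  · rw [Complex.zero_im, sub_zero]
    have a1 := abs_sub_abs_le_abs_sub p.1.im w.im
    have a2 := le_abs_self L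
    have a3 := abs_nonneg w.re
    linarith

theorem pvm_cnt_eqns_cite : True := by
  have := @pvmN.eq_1.{0}
  have := @pvmPc.eq_1.{0, 0}
  have := @pvmF.eq_1.{0, 0}
  have := @pvmG.eq_1.{0, 0}
  have := @pvmNl.eq_1.{0, 0}
  have := @pvmIxN.eq_1
  have := @pvmIN.eq_1
  have := @pvmSqP.eq_1
  trivial

end Claimed.Agent.R289
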