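-- KEEP
import Claimed.Agent.R289.Mesh.Tri
import Claimed.Agent.R289.PppQ

/-!
# Row 289 (S0537), box MESH, file Mesh/Geo : MESH ON THE GEOMETRY SPACE `PvGeoT` (= `PvfBase`), law `pvGeo ε` (`= pvfBaseLaw ε`)      (owner helper127; prefix `pvmg_`)

ADAPTERS for the consumers whose sample space carries NO colours (OBS: `PvoiIn` of `Obs/InstCr.lean`; S1P; CR).   0 sorry.
* sec. 1  colour blindness: `pvm_sel_congr`, `pvmg_good_congr` (`pvmGood univ` only sees `cfSites`), `PvmOne η` (one colour per site), `pvmg_N_eq`, `pvmg_Z_congr`, `pvmg_ZS_congr`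
* sec. 2  `pvmgC g` (the configuration of `g`, all white), **`pvmgW k ε w s g`** (measurable majorant), `pvmg_W_lint` (same law as `pvmZS` under `pvP ε`), **`pvmg_sum_le`** (`∑ diam^k` over ANY finite family of
          Delaunay triples of `pvgSites g` attached to `pvmSq w s` is `≤ pvmgW k ε w s g`, for EVERY `g`), **`pvmg_mom`**, `pvmg_var`;   **`pvmgG ρ w L`** (good mesh event), `pvmg_G_meas`, `pvmg_G_prob`, `pvmg_G_tendsto`, `pvmg_G_dense`, `pvmg_small`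
* sec. 3  `PvmFin c0 ε η` ⟹ all the majorants are finite (`pvm_Z_ne_top`, `pvm_ZS_ne_top`);  `pvmFinE c0 ε` measurable a.s. event inside it (`pvm_FinE_meas _sub _ae`);   **`pvmgF ε`**, `pvmg_F_meas`, `pvmg_F_ae`, `pvmg_W_ne_top`
* sec. 4  REAL forms: `pvmgWr ε w r g`, `pvmg_Wr_meas`, `pvmg_Wr_nonneg`, **`pvmg_Wr_mom_seq`** (= field `W_mom`), **`pvmg_Wr_sum_le`** (on `pvmgF ε`), `pvmg_G_tendsto_seq`, `pvmg_GF_tendsto_seq` (= field `G_prob`)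
* sec. 5  `pvmg_at_ball`, `pvmg_at_of_mem`; general exponent `pvmgWk k ε w r g` (`_meas _nonneg _mom _sum_le _integrable`); on `PVSample`: `pvmg_law_meas`, `pvmg_law_mom`, `pvmg_law_good_meas / _prob / _tendsto`
WARNING for the instance: `pvmgWr = 0` off the null set `pvmgF ε`: a field "for ALL `o`" (`tv_ball`, `tv_univ`) needs the edge system to be EMPTY off `pvmgF (εs k)`.
-/

set_option autoImplicit false

namespace Claimed.Agent.R289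

open MeasureTheory ProbabilityTheory Set Filter Topology Claims.C0465
open scoped ENNReal NNReal

/-! ## 1. colour blindness of the majorants -/

theorem pvm_sel_congr {Ω : Type*} [MeasurableSpace Ω] {A : ℕ → Set Ω} {Y : ℕ → Ω → ℝ≥0∞} {o o' : Ω} (hA : ∀ j, o ∈ A j ↔ o' ∈ A j) (hY : ∀ j, Y j o = Y j o') :
    pvmSel A Y o = pvmSel A Y o' := by
  have hD : ∀ j, o ∈ disjointed A j ↔ o' ∈ disjointed A j := by
    intro j
    simp only [disjointed_eq_inter_compl, mem_inter_iff, mem_iInter, mem_compl_iff, hA]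
  have hU : o ∈ ⋃ j, A j ↔ o' ∈ ⋃ j, A j := by simp only [mem_iUnion, hA]
  rcases pvm_sel_cases A o with ⟨j, hj⟩ | h0
  · rw [pvm_sel_eq Y hj, pvm_sel_eq Y ((hD j).1 hj), hY]
  · rw [pvm_sel_top Y h0, pvm_sel_top Y (fun h => h0 (hU.2 h))]

theorem pvmg_occ_iff (A : Set ℂ) (η : Conf PvPt) : η ∈ pvmOcc (A ×ˢ (univ : Set Bool)) ↔ ∃ z ∈ cfSites η, z ∈ A := by
  constructor
  · rintro ⟨p, hp, hpA⟩
    exact ⟨p.1, ⟨p, hp, rfl⟩, hpA.1⟩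
  · rintro ⟨_, ⟨p, hp, rfl⟩, hA⟩
    exact ⟨p, hp, hA, mem_univ _⟩

/-- the good mesh event (all colours) only sees the sites -/
theorem pvmg_good_congr {η η' : Conf PvPt} (h : cfSites η = cfSites η') (ρ : ℝ) (w : ℂ) (L : ℝ) :
    η ∈ pvmGood univ ρ w L ↔ η' ∈ pvmGood univ ρ w L := by
  simp only [pvmGood, pvmGrid, mem_iInter, pvmg_occ_iff, h]

/-- every site has one colour -/
def PvmOne (η : Conf PvPt) : Prop := ∀ p ∈ η.pts, ∀ q ∈ η.pts, p.1 = q.1 → p = q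

theorem pvmg_N_eq {η : Conf PvPt} (h : PvmOne η) (A : Set ℂ) : pvmN (A ×ˢ (univ : Set Bool)) η = ((cfSites η ∩ A).encard : ℝ≥0∞) := by
  unfold pvmN
  have e : cfSites η ∩ A = Prod.fst '' (η.pts ∩ A ×ˢ (univ : Set Bool)) := by
    ext z
    constructor
    · rintro ⟨⟨p, hp, rfl⟩, hA⟩
      exact ⟨p, ⟨hp, hA, mem_univ _⟩, rfl⟩
    · rintro ⟨p, ⟨hp, hA, -⟩, rfl⟩
      exact ⟨⟨p, hp, rfl⟩, hA⟩
  have hinj : Set.InjOn Prod.fst (η.pts ∩ A ×ˢ (univ : Set Bool)) := fun p hp q hq hpq => h p hp.1 q hq.1 hpq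
  rw [e, hinj.encard_image]

theorem pvmg_N_congr {η η' : Conf PvPt} (h : cfSites η = cfSites η') (h1 : PvmOne η) (h1' : PvmOne η') (w : ℂ) (L : ℝ) :
    pvmN (pvmSqP w L) η = pvmN (pvmSqP w L) η' := by
  unfold pvmSqP
  rw [pvmg_N_eq h1, pvmg_N_eq h1', h]

theorem pvmg_Z_congr {η η' : Conf PvPt} (h : cfSites η = cfSites η') (h1 : PvmOne η) (h1' : PvmOne η') (k d : ℕ) (c0 ε : ℝ) (w : ℂ) :
    pvmZ k d c0 ε w η = pvmZ k d c0 ε w η' := by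
  unfold pvmZ
  refine pvm_sel_congr (fun j => pvmg_good_congr h _ _ _) fun j => ?_
  unfold pvmY
  rw [pvmg_N_congr h h1 h1']

theorem pvmg_ZS_congr {η η' : Conf PvPt} (h : cfSites η = cfSites η') (h1 : PvmOne η) (h1' : PvmOne η') (k d : ℕ) (c0 ε : ℝ) (w : ℂ) (s : ℝ) :
    pvmZS k d c0 ε w s η = pvmZS k d c0 ε w s η' := by
  unfold pvmZS
  exact Finset.sum_congr rfl fun i _ => pvmg_Z_congr h h1 h1' k d c0 ε _

/-! ## 2. the geometry space -/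

/-- the configuration of a labelled geometry, all sites white -/
def pvmgC (g : PvGeoT) : Conf PvPt := pvConf (pvMerge (g, fun _ => false))

theorem measurable_pvmgC : Measurable pvmgC :=
  measurable_pvConf.comp (measurable_pvMerge.comp (measurable_id.prodMk measurable_const))

theorem pvmg_sites (g : PvGeoT) : cfSites (pvmgC g) = pvgSites g := pvqu_cfSites g _

theorem pvmg_one (g : PvGeoT) : PvmOne (pvmgC g) := by
  rintro p ⟨k, j, _, rfl⟩ q ⟨k', j', _, rfl⟩ hpq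
  exact Prod.ext hpq rfl

theorem pvmg_sites_of (ω : PVSample) : cfSites (pvConf ω) = cfSites (pvmgC (pvGeoOf ω)) := by
  rw [pvmg_sites, ← pvqu_cfSites (pvGeoOf ω) (pvColOf ω), pvqu_merge_of]

/-- **the majorant on the geometry space** -/
noncomputable def pvmgW (k : ℕ) (ε : ℝ) (w : ℂ) (s : ℝ) (g : PvGeoT) : ℝ≥0∞ := pvmZS k 3 3 ε w s (pvmgC g)

theorem pvmg_W_meas (k : ℕ) (ε : ℝ) (w : ℂ) (s : ℝ) : Measurable (pvmgW k ε w s) := (pvm_ZS_meas k 3 3 ε w s).comp measurable_pvmgC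

theorem pvmg_W_of {ω : PVSample} (h : DelgpOk ω) (k : ℕ) (ε : ℝ) (w : ℂ) (s : ℝ) : pvmZS k 3 3 ε w s (pvConf ω) = pvmgW k ε w s (pvGeoOf ω) :=
  pvmg_ZS_congr (pvmg_sites_of ω) (fun _ hp _ hq => h.cf.one' hp hq) (pvmg_one _) k 3 3 ε w s

/-- the law of the majorant is the same on the two spaces -/
theorem pvmg_W_lint (k : ℕ) (ε ε' : ℝ) (w : ℂ) (s : ℝ) (p : ℕ) :
    ∫⁻ g, pvmgW k ε w s g ^ p ∂(pvGeo ε') = ∫⁻ η, pvmZS k 3 3 ε w s η ^ p ∂(pvP ε') := by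
  rw [← pvqu_law_geo, lintegral_map ((pvmg_W_meas k ε w s).pow_const p) measurable_pvGeoOf, pvP,
    lintegral_map ((pvm_ZS_meas k 3 3 ε w s).pow_const p) measurable_pvConf]
  refine lintegral_congr_ae ?_
  filter_upwards [delgp_ae ε'] with ω hω
  rw [pvmg_W_of hω]

/-- the majorant property, in the vocabulary of the sites of the geometry -/
theorem pvmg_sum_le (k : ℕ) {ε : ℝ} (hε : 0 < ε) (w : ℂ) (s : ℝ) (g : PvGeoT) (F : Finset (ℂ × ℂ × ℂ))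
    (hF : ∀ t ∈ F, PvmtAt (pvgSites g) (pvmSq w s) t) : ∑ t ∈ F, ENNReal.ofReal (pvmtD t ^ k) ≤ pvmgW k ε w s g :=
  pvmt_sum_sq k hε w s (pvmgC g) F (by rw [pvmg_sites]; exact hF)

/-- **(prob:mesh-moments) on the geometry space** -/
theorem pvmg_mom {p : ℕ} (hp : p ≠ 0) (k : ℕ) : ∃ K : ℝ, 0 ≤ K ∧ ∀ (ε : ℝ), 0 < ε → ∀ (w : ℂ) (s : ℝ), 0 ≤ s →
    ∫⁻ g, pvmgW k ε w s g ^ p ∂(pvGeo ε) ≤ ENNReal.ofReal (K * (ε ^ k * ((s + ε) / ε) ^ 2) ^ p) := by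
  obtain ⟨K, hK, h⟩ := pvmt_mom hp k
  refine ⟨K, hK, fun ε hε w s hs => ?_⟩
  rw [pvmg_W_lint]
  exact h ε hε _ (pv_isPpp ε) w s hs

theorem pvmg_var : ∃ C : ℝ, 0 ≤ C ∧ ∀ (ε : ℝ), 0 < ε → ∀ (w : ℂ) (r : ℝ), ε ≤ r →
    ∫⁻ g, pvmgW 2 ε w r g ^ 2 ∂(pvGeo ε) ≤ ENNReal.ofReal (C * r ^ 4) := by
  obtain ⟨C, hC, h⟩ := pvmt_var
  refine ⟨C, hC, fun ε hε w r hr => ?_⟩
  rw [pvmg_W_lint]
  exact h ε hε _ (pv_isPpp ε) w r hr

/-- **the good mesh event on the geometry space** -/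
def pvmgG (ρ : ℝ) (w : ℂ) (L : ℝ) : Set PvGeoT := pvmgC ⁻¹' pvmGood univ ρ w L

theorem pvmg_G_meas (ρ : ℝ) (w : ℂ) (L : ℝ) : MeasurableSet (pvmgG ρ w L) := measurable_pvmgC (pvm_good_meas _ _ _ _)

theorem pvmg_G_law (ε ρ : ℝ) (w : ℂ) (L : ℝ) : pvGeo ε (pvmgG ρ w L)ᶜ = pvP ε (pvmGood univ ρ w L)ᶜ := by
  rw [← pvqu_law_geo, Measure.map_apply measurable_pvGeoOf (pvmg_G_meas ρ w L).compl, pvP,
    Measure.map_apply measurable_pvConf (pvm_good_meas _ _ _ _).compl]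
  congr 1
  ext ω
  simp only [mem_preimage, mem_compl_iff, pvmgG]
  rw [pvmg_good_congr (pvmg_sites_of ω)]

theorem pvmg_G_prob {ε ρ L : ℝ} (hρ : 0 < ρ) (hL : 0 ≤ L) (w : ℂ) :
    pvGeo ε (pvmgG ρ w L)ᶜ ≤ ENNReal.ofReal ((4 * L / ρ + 5) ^ 2 * Real.exp (-(ρ ^ 2 / (8 * ε ^ 2)))) := by
  rw [pvmg_G_law]
  exact pvm_good_prob hρ hL (pv_isPpp ε) univ_nonempty w

theorem pvmg_G_tendsto {ρ L : ℝ} (hρ : 0 < ρ) (hL : 0 ≤ L) (w : ℂ) : Tendsto (fun ε => pvGeo ε (pvmgG ρ w L)ᶜ) (𝓝[>] 0) (𝓝 0) := by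
  simp only [pvmg_G_law]
  exact pvm_good_tendsto hρ hL (fun ε _ => pv_isPpp ε) univ_nonempty w

theorem pvmg_G_dense {ρ L : ℝ} (hρ : 0 < ρ) {w : ℂ} {g : PvGeoT} (h : g ∈ pvmgG ρ w L) : VorDense (pvgSites g) (pvmSq w L) ρ := by
  have := pvmt_good_dense hρ h
  rwa [pvmg_sites] at this

theorem pvmg_small {ρ s : ℝ} (hρ : 0 < ρ) {w : ℂ} {g : PvGeoT} (hG : g ∈ pvmgG ρ w (s + 2 * ρ)) {t : ℂ × ℂ × ℂ}
    (ht : PvmtAt (pvgSites g) (pvmSq w s) t) : pvmtD t ≤ 2 * ρ :=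
  pvmt_small hρ hG (by rw [pvmg_sites]; exact ht)

/-! ## 3. the majorants are finite, everywhere at once, almost surely -/

/-- every point has a good scale, every square finitely many points -/
def PvmFin (c0 ε : ℝ) (η : Conf PvPt) : Prop := (∀ w : ℂ, ∃ j, η ∈ pvmA c0 ε w j) ∧ ∀ (w : ℂ) (L : ℝ), pvmN (pvmSqP w L) η ≠ ∞

theorem pvm_Z_ne_top {c0 ε : ℝ} {η : Conf PvPt} (h : PvmFin c0 ε η) (k d : ℕ) (w : ℂ) : pvmZ k d c0 ε w η ≠ ∞ := by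
  obtain ⟨j0, hj0⟩ := h.1 w
  rcases pvm_sel_cases (pvmA c0 ε w) η with ⟨j, hj⟩ | h0
  · unfold pvmZ
    rw [pvm_sel_eq _ hj]
    unfold pvmY
    exact ENNReal.mul_ne_top ENNReal.ofReal_ne_top (ENNReal.pow_ne_top (h.2 _ _))
  · exact absurd (mem_iUnion.2 ⟨j0, hj0⟩) h0

theorem pvm_ZS_ne_top {c0 ε : ℝ} {η : Conf PvPt} (h : PvmFin c0 ε η) (k d : ℕ) (w : ℂ) (s : ℝ) : pvmZS k d c0 ε w s η ≠ ∞ := by
  unfold pvmZS
  exact ENNReal.sum_ne_top.2 fun i _ => pvm_Z_ne_top h k d _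

theorem pvm_A_shift {c0 ε : ℝ} (hc0 : 0 ≤ c0) (hε : 0 < ε) {w w0 : ℂ} (h : w ∈ pvmSq w0 (ε / 2)) (j : ℕ) : pvmA (c0 + 2) ε w0 j ⊆ pvmA c0 ε w j := by
  intro η hη
  have hj : (0 : ℝ) < (j : ℝ) + 1 := by positivity
  have hδ : 0 < ((j : ℝ) + 1) * ε / 2 := by positivity
  have e1 : 2 * (c0 * ((j : ℝ) + 1) * ε) / (((j : ℝ) + 1) * ε) = 2 * c0 := by field_simp
  have e2 : 2 * ((c0 + 2) * ((j : ℝ) + 1) * ε) / (((j : ℝ) + 1) * ε) = 2 * c0 + (4 : ℕ) := by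
    push_cast; field_simp; ring
  simp only [pvmA, pvmGood, pvmGrid, mem_iInter, e1, e2] at hη ⊢
  rw [Nat.ceil_add_natCast (by positivity)] at hη
  intro k hk
  refine hη k ?_
  have h2 : pvmIx (((j : ℝ) + 1) * ε / 2) w ∈ pvmIdx (pvmIx (((j : ℝ) + 1) * ε / 2) w0) 2 := by
    refine pvm_Ix_mem hδ ?_ h
    have : ε / 2 / (((j : ℝ) + 1) * ε / 2) ≤ 1 := by
      rw [div_le_one hδ]; nlinarith [Nat.cast_nonneg (α := ℝ) j]
    push_cast; linarith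
  rw [pvm_mem_Idx] at hk h2 ⊢
  have tri : ∀ a b c : ℤ, |a - c| ≤ |a - b| + |b - c| := fun a b c => abs_sub_le a b c
  constructor
  · have := tri k.1 (pvmIx (((j : ℝ) + 1) * ε / 2) w).1 (pvmIx (((j : ℝ) + 1) * ε / 2) w0).1
    push_cast at hk h2 ⊢
    linarith [hk.1, h2.1]
  · have := tri k.2 (pvmIx (((j : ℝ) + 1) * ε / 2) w).2 (pvmIx (((j : ℝ) + 1) * ε / 2) w0).2
    push_cast at hk h2 ⊢
    linarith [hk.2, h2.2]

/-- a MEASURABLE almost sure event inside `PvmFin` -/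
def pvmFinE (c0 ε : ℝ) : Set (Conf PvPt) :=
  (⋂ i : ℤ × ℤ, ⋃ j, pvmA (c0 + 2) ε (pvmTc ε 0 i) j) ∩ ⋂ n : ℕ, {η | pvmN (pvmSqP 0 n) η ≠ ∞}

theorem pvm_FinE_meas (c0 ε : ℝ) : MeasurableSet (pvmFinE c0 ε) := by
  refine MeasurableSet.inter (MeasurableSet.iInter fun i => MeasurableSet.iUnion fun j => pvm_A_meas _ _ _ _) (MeasurableSet.iInter fun n => ?_)
  exact ((pvm_SqP_cnt_meas 0 n) (measurableSet_singleton ∞)).compl

theorem pvm_FinE_sub {c0 ε : ℝ} (hc0 : 0 ≤ c0) (hε : 0 < ε) {η : Conf PvPt} (h : η ∈ pvmFinE c0 ε) : PvmFin c0 ε η := by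
  obtain ⟨h1, h2⟩ := h
  rw [mem_iInter] at h1 h2
  constructor
  · intro w
    have hw : w ∈ pvmSq 0 (|w.re| + |w.im|) := by
      refine ⟨?_, ?_⟩
      · rw [Complex.zero_re, sub_zero]; linarith [abs_nonneg w.im]
      · rw [Complex.zero_im, sub_zero]; linarith [abs_nonneg w.re]
    obtain ⟨i, -, hi⟩ := pvm_tile_cover hε hw
    obtain ⟨j, hj⟩ := mem_iUnion.1 (h1 i)
    exact ⟨j, pvm_A_shift hc0 hε hi j hj⟩
  · intro w L
    obtain ⟨n, hn⟩ := exists_nat_ge (|w.re| + |w.im| + |L|)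
    refine ne_top_of_le_ne_top (h2 n) (pvm_N_mono ?_ η)
    rintro p ⟨⟨a, b⟩, -⟩
    refine ⟨⟨?_, ?_⟩, mem_univ _⟩
    · rw [Complex.zero_re, sub_zero]
      have a1 := abs_sub_abs_le_abs_sub p.1.re w.re
      linarith [le_abs_self L, abs_nonneg w.im]
    · rw [Complex.zero_im, sub_zero]
      have a1 := abs_sub_abs_le_abs_sub p.1.im w.im
      linarith [le_abs_self L, abs_nonneg w.re]

theorem pvm_FinE_ae {c0 ε : ℝ} (hc0 : 0 ≤ c0) (hε : 0 < ε) {μ : Measure (Conf PvPt)} (h : IsPpp (pvInt ε) μ) : ∀ᵐ η ∂μ, η ∈ pvmFinE c0 ε := by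
  have h1 : ∀ i : ℤ × ℤ, ∀ᵐ η ∂μ, η ∈ ⋃ j, pvmA (c0 + 2) ε (pvmTc ε 0 i) j := by
    intro i
    have := pvm_A_null (c0 := c0 + 2) (by linarith) hε h (pvmTc ε 0 i)
    rw [← mem_ae_iff] at this
    exact this
  filter_upwards [ae_all_iff.2 h1, pvm_locfin_ae h] with η a b
  refine ⟨mem_iInter.2 a, mem_iInter.2 fun n => ?_⟩
  show pvmN (pvmSqP 0 n) η ≠ ∞
  unfold pvmN
  rw [ENat.toENNReal_ne_top, ← lt_top_iff_ne_top, Set.encard_lt_top_iff]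
  exact b 0 n

theorem pvmg_FinE_congr {η η' : Conf PvPt} (h : cfSites η = cfSites η') (h1 : PvmOne η) (h1' : PvmOne η') (c0 ε : ℝ) :
    η ∈ pvmFinE c0 ε ↔ η' ∈ pvmFinE c0 ε := by
  simp only [pvmFinE, pvmA, mem_inter_iff, mem_iInter, mem_iUnion, mem_ofPred_eq, pvmg_good_congr h, pvmg_N_congr h h1 h1']

/-- the geometries at which all the majorants are finite (measurable, almost sure) -/
def pvmgF (ε : ℝ) : Set PvGeoT := pvmgC ⁻¹' pvmFinE 3 ε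

theorem pvmg_F_meas (ε : ℝ) : MeasurableSet (pvmgF ε) := measurable_pvmgC (pvm_FinE_meas 3 ε)

theorem pvmg_F_ae {ε : ℝ} (hε : 0 < ε) : ∀ᵐ g ∂(pvGeo ε), g ∈ pvmgF ε := by
  rw [← pvqu_law_geo]
  refine (ae_map_iff (p := fun g => g ∈ pvmgF ε) measurable_pvGeoOf.aemeasurable (pvmg_F_meas ε)).2 ?_
  have h1 : ∀ᵐ ω ∂(pvLaw ε), pvConf ω ∈ pvmFinE 3 ε :=
    ae_of_ae_map measurable_pvConf.aemeasurable (pvm_FinE_ae (by norm_num) hε (pv_isPpp ε))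
  filter_upwards [h1, delgp_ae ε] with ω a b
  exact (pvmg_FinE_congr (pvmg_sites_of ω) (fun _ hp _ hq => b.cf.one' hp hq) (pvmg_one _) 3 ε).1 a

theorem pvmg_W_ne_top {ε : ℝ} (hε : 0 < ε) {g : PvGeoT} (h : g ∈ pvmgF ε) (k : ℕ) (w : ℂ) (s : ℝ) : pvmgW k ε w s g ≠ ∞ :=
  pvm_ZS_ne_top (pvm_FinE_sub (by norm_num) hε h) k 3 w s

/-! ## 4. real valued forms (the shape of `PvoiIn` of `Obs/InstCr.lean`: `W p r k o := pvmgWr (εs k) p r o`, `P k := pvGeo (εs k)`) -/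

/-- the real valued majorant of `∑ diam²` (it is `0` off `pvmgF ε`: a null set, to be excluded by the instance) -/
noncomputable def pvmgWr (ε : ℝ) (w : ℂ) (r : ℝ) (g : PvGeoT) : ℝ := (pvmgW 2 ε w r g).toReal

theorem pvmg_Wr_meas (ε : ℝ) (w : ℂ) (r : ℝ) : Measurable (pvmgWr ε w r) := (pvmg_W_meas 2 ε w r).ennreal_toReal

theorem pvmg_Wr_nonneg (ε : ℝ) (w : ℂ) (r : ℝ) (g : PvGeoT) : 0 ≤ pvmgWr ε w r g := ENNReal.toReal_nonneg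

theorem pvmg_Wr_sq_le (ε : ℝ) (w : ℂ) (r : ℝ) (g : PvGeoT) : ENNReal.ofReal (pvmgWr ε w r g ^ 2) ≤ pvmgW 2 ε w r g ^ 2 := by
  rw [ENNReal.ofReal_pow (pvmg_Wr_nonneg ε w r g)]
  exact pow_le_pow_left₀ zero_le ENNReal.ofReal_toReal_le 2

theorem pvmg_Wr_mom : ∃ C : ℝ, 0 ≤ C ∧ ∀ (ε : ℝ), 0 < ε → ∀ (w : ℂ) (r : ℝ), ε ≤ r →
    ∫⁻ g, ENNReal.ofReal (pvmgWr ε w r g ^ 2) ∂(pvGeo ε) ≤ ENNReal.ofReal (C * r ^ 4) := by
  obtain ⟨C, hC, h⟩ := pvmg_var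
  exact ⟨C, hC, fun ε hε w r hr => (lintegral_mono fun g => pvmg_Wr_sq_le ε w r g).trans (h ε hε w r hr)⟩

/-- **`W_mom`** along a sequence of meshes -/
theorem pvmg_Wr_mom_seq {εs : ℕ → ℝ} (hpos : ∀ n, 0 < εs n) (hlim : Tendsto εs atTop (𝓝 0)) : ∃ C : ℝ, ∀ (p : ℂ) (r : ℝ), 0 < r → r ≤ 1 →
    ∀ᶠ k in atTop, ∫⁻ o, ENNReal.ofReal (pvmgWr (εs k) p r o ^ 2) ∂(pvGeo (εs k)) ≤ ENNReal.ofReal (C * r ^ 4) := by
  obtain ⟨C, -, h⟩ := pvmg_Wr_mom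
  refine ⟨C, fun p r hr _ => ?_⟩
  filter_upwards [hlim.eventually (eventually_le_nhds hr)] with k hk
  exact h (εs k) (hpos k) p r hk

/-- the majorant property in real form, on the almost sure event `pvmgF ε` -/
theorem pvmg_Wr_sum_le {ε : ℝ} (hε : 0 < ε) {g : PvGeoT} (h : g ∈ pvmgF ε) (w : ℂ) (r : ℝ) (F : Finset (ℂ × ℂ × ℂ))
    (hF : ∀ t ∈ F, PvmtAt (pvgSites g) (pvmSq w r) t) : ∑ t ∈ F, pvmtD t ^ 2 ≤ pvmgWr ε w r g := by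
  have h1 := pvmg_sum_le 2 hε w r g F hF
  rw [← ENNReal.ofReal_sum_of_nonneg fun t _ => by positivity] at h1
  have h2 := ENNReal.toReal_mono (pvmg_W_ne_top hε h 2 w r) h1
  rwa [ENNReal.toReal_ofReal (Finset.sum_nonneg fun t _ => by positivity)] at h2

/-- **`G_prob`** along a sequence of meshes -/
theorem pvmg_G_tendsto_seq {εs : ℕ → ℝ} (hpos : ∀ n, 0 < εs n) (hlim : Tendsto εs atTop (𝓝 0)) {ρ L : ℝ} (hρ : 0 < ρ) (hL : 0 ≤ L) (w : ℂ) :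
    Tendsto (fun k => pvGeo (εs k) (pvmgG ρ w L)ᶜ) atTop (𝓝 0) := by
  have h1 : Tendsto εs atTop (𝓝[>] 0) := tendsto_nhdsWithin_iff.2 ⟨hlim, Eventually.of_forall hpos⟩
  exact (pvmg_G_tendsto hρ hL w).comp h1

/-- the good mesh event intersected with the finiteness event: still measurable, probability `→ 1` -/
theorem pvmg_GF_tendsto_seq {εs : ℕ → ℝ} (hpos : ∀ n, 0 < εs n) (hlim : Tendsto εs atTop (𝓝 0)) {ρ L : ℝ} (hρ : 0 < ρ) (hL : 0 ≤ L) (w : ℂ) :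
    Tendsto (fun k => pvGeo (εs k) (pvmgG ρ w L ∩ pvmgF (εs k))ᶜ) atTop (𝓝 0) := by
  refine (pvmg_G_tendsto_seq hpos hlim hρ hL w).congr fun k => ?_
  refine measure_congr ?_
  filter_upwards [pvmg_F_ae (hpos k)] with g hg
  have : (g ∈ (pvmgG ρ w L)ᶜ) = (g ∈ (pvmgG ρ w L ∩ pvmgF (εs k))ᶜ) := by
    simp only [mem_compl_iff, mem_inter_iff, hg, and_true]
  exact this

/-! ## 5. balls, general exponents, the frozen sample space -/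

theorem pvmg_at_ball {Y : Set ℂ} {p : ℂ} {r : ℝ} {t : ℂ × ℂ × ℂ} (h : PvmtAt Y (Metric.closedBall p r) t) : PvmtAt Y (pvmSq p r) t :=
  h.mono (pvmt_ball_sub p r)

/-- a Delaunay triangle which contains a point of the open ball is attached to the square -/
theorem pvmg_at_of_mem {Y : Set ℂ} {a b c x p : ℂ} {r : ℝ} (h : DelTri Y a b c) (hx : x ∈ delT a b c) (hxp : x ∈ Metric.ball p r) :
    PvmtAt Y (pvmSq p r) (a, b, c) :=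
  pvmt_at_of_delT h ⟨x, hx, pvmt_ball_sub p r (Metric.ball_subset_closedBall hxp)⟩

/-- the real valued majorant of `∑ diam^k` -/
noncomputable def pvmgWk (k : ℕ) (ε : ℝ) (w : ℂ) (r : ℝ) (g : PvGeoT) : ℝ := (pvmgW k ε w r g).toReal

theorem pvmg_Wk_meas (k : ℕ) (ε : ℝ) (w : ℂ) (r : ℝ) : Measurable (pvmgWk k ε w r) := (pvmg_W_meas k ε w r).ennreal_toReal

theorem pvmg_Wk_nonneg (k : ℕ) (ε : ℝ) (w : ℂ) (r : ℝ) (g : PvGeoT) : 0 ≤ pvmgWk k ε w r g := ENNReal.toReal_nonneg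

theorem pvmg_Wk_two (ε : ℝ) (w : ℂ) (r : ℝ) : pvmgWk 2 ε w r = pvmgWr ε w r := rfl

theorem pvmg_Wk_pow_le (k p : ℕ) (ε : ℝ) (w : ℂ) (r : ℝ) (g : PvGeoT) : ENNReal.ofReal (pvmgWk k ε w r g ^ p) ≤ pvmgW k ε w r g ^ p := by
  rw [ENNReal.ofReal_pow (pvmg_Wk_nonneg k ε w r g)]
  exact pow_le_pow_left₀ zero_le ENNReal.ofReal_toReal_le p

theorem pvmg_Wk_mom {p : ℕ} (hp : p ≠ 0) (k : ℕ) : ∃ K : ℝ, 0 ≤ K ∧ ∀ (ε : ℝ), 0 < ε → ∀ (w : ℂ) (s : ℝ), 0 ≤ s →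
    ∫⁻ g, ENNReal.ofReal (pvmgWk k ε w s g ^ p) ∂(pvGeo ε) ≤ ENNReal.ofReal (K * (ε ^ k * ((s + ε) / ε) ^ 2) ^ p) := by
  obtain ⟨K, hK, h⟩ := pvmg_mom hp k
  exact ⟨K, hK, fun ε hε w s hs => (lintegral_mono fun g => pvmg_Wk_pow_le k p ε w s g).trans (h ε hε w s hs)⟩

theorem pvmg_Wk_sum_le (k : ℕ) {ε : ℝ} (hε : 0 < ε) {g : PvGeoT} (h : g ∈ pvmgF ε) (w : ℂ) (r : ℝ) (F : Finset (ℂ × ℂ × ℂ))
    (hF : ∀ t ∈ F, PvmtAt (pvgSites g) (pvmSq w r) t) : ∑ t ∈ F, pvmtD t ^ k ≤ pvmgWk k ε w r g := by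
  have h0 : ∀ t ∈ F, 0 ≤ pvmtD t ^ k := fun t _ => pow_nonneg (pvmt_D_nonneg t) k
  have h1 := pvmg_sum_le k hε w r g F hF
  rw [← ENNReal.ofReal_sum_of_nonneg h0] at h1
  have h2 := ENNReal.toReal_mono (pvmg_W_ne_top hε h k w r) h1
  rwa [ENNReal.toReal_ofReal (Finset.sum_nonneg h0)] at h2

/-- the integrability of the real majorant -/
theorem pvmg_Wk_integrable (k : ℕ) {ε : ℝ} (hε : 0 < ε) (w : ℂ) {s : ℝ} (hs : 0 ≤ s) : Integrable (pvmgWk k ε w s) (pvGeo ε) := by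
  obtain ⟨K, -, h⟩ := pvmg_Wk_mom (p := 1) one_ne_zero k
  refine ⟨(pvmg_Wk_meas k ε w s).aestronglyMeasurable, ?_⟩
  rw [hasFiniteIntegral_iff_ofReal (Eventually.of_forall fun g => pvmg_Wk_nonneg k ε w s g)]
  have := h ε hε w s hs
  simp only [pow_one] at this
  exact this.trans_lt ENNReal.ofReal_lt_top

/-- the majorant on the frozen sample space -/
theorem pvmg_law_meas (k : ℕ) (ε : ℝ) (w : ℂ) (s : ℝ) : Measurable fun ω : PVSample => pvmZS k 3 3 ε w s (pvConf ω) :=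
  (pvm_ZS_meas k 3 3 ε w s).comp measurable_pvConf

theorem pvmg_law_mom {p : ℕ} (hp : p ≠ 0) (k : ℕ) : ∃ K : ℝ, 0 ≤ K ∧ ∀ (ε : ℝ), 0 < ε → ∀ (w : ℂ) (s : ℝ), 0 ≤ s →
    ∫⁻ ω, pvmZS k 3 3 ε w s (pvConf ω) ^ p ∂(pvLaw ε) ≤ ENNReal.ofReal (K * (ε ^ k * ((s + ε) / ε) ^ 2) ^ p) := by
  obtain ⟨K, hK, h⟩ := pvmt_mom hp k
  refine ⟨K, hK, fun ε hε w s hs => ?_⟩
  have := h ε hε _ (pv_isPpp ε) w s hs
  rwa [pvP, lintegral_map ((pvm_ZS_meas k 3 3 ε w s).pow_const p) measurable_pvConf] at this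

theorem pvmg_law_good_meas (c : Set Bool) (ρ : ℝ) (w : ℂ) (L : ℝ) : MeasurableSet {ω : PVSample | pvConf ω ∈ pvmGood c ρ w L} :=
  measurable_pvConf (pvm_good_meas c ρ w L)

theorem pvmg_law_good_eq (ε : ℝ) (c : Set Bool) (ρ : ℝ) (w : ℂ) (L : ℝ) :
    pvLaw ε {ω : PVSample | pvConf ω ∈ pvmGood c ρ w L}ᶜ = pvP ε (pvmGood c ρ w L)ᶜ := by
  rw [pvP, Measure.map_apply measurable_pvConf (pvm_good_meas c ρ w L).compl]
  rfl

theorem pvmg_law_good_prob {ε ρ L : ℝ} (hρ : 0 < ρ) (hL : 0 ≤ L) {c : Set Bool} (hc : c.Nonempty) (w : ℂ) :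
    pvLaw ε {ω : PVSample | pvConf ω ∈ pvmGood c ρ w L}ᶜ ≤ ENNReal.ofReal ((4 * L / ρ + 5) ^ 2 * Real.exp (-(ρ ^ 2 / (8 * ε ^ 2)))) := by
  rw [pvmg_law_good_eq]
  exact pvm_good_prob hρ hL (pv_isPpp ε) hc w

theorem pvmg_law_good_tendsto {ρ L : ℝ} (hρ : 0 < ρ) (hL : 0 ≤ L) {c : Set Bool} (hc : c.Nonempty) (w : ℂ) :
    Tendsto (fun ε => pvLaw ε {ω : PVSample | pvConf ω ∈ pvmGood c ρ w L}ᶜ) (𝓝[>] 0) (𝓝 0) := by
  simp only [pvmg_law_good_eq]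
  exact pvm_good_tendsto hρ hL (fun ε _ => pv_isPpp ε) hc w

theorem pvmg_eqns_cite : True := by
  have := @pvmgWk.eq_1
  have := @PvmOne.eq_1
  have := @pvmgC.eq_1
  have := @pvmgW.eq_1
  have := @pvmgG.eq_1
  have := @PvmFin.eq_1
  have := @pvmFinE.eq_1
  have := @pvmgF.eq_1
  have := @pvmgWr.eq_1
  trivial

end Claimed.Agent.R289
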